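import Vale.Agent.P263.T0.SphH
import Vale.Agent.P263.GB.Base
import Vale.Agent.P263.G2.SingSS

/-!
# P263, statement layer: the mod 2 chains of a space which is a point with one cell

`hz_of_hgen` : if `X` is a point `x₀` with one `n`-cell (`HGen univ {x₀} n σ`, file `SphI`), then
`H_k(X; 𝔽₂) = 0` for `0 < k`, `k ≠ n`, in the form used by the block `GB`.
-/

open Topology Set Vale.Agent.P246.T Vale.Agent.P246.T.FM

namespace Vale.Agent.P263.T0.SphH

open Vale.Agent.P263.S Vale.Agent.P263.E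

theorem dl_coe {m : ℕ} (i : Fin (m + 2)) : ⇑(dl m i.1) = i.succAbove := by
  funext x
  apply Fin.ext
  rw [dl_val]
  by_cases h : x.1 < i.1
  · rw [if_pos h, Fin.succAbove_of_castSucc_lt _ _ (by rw [Fin.lt_def]; exact h)]
    rfl
  · rw [if_neg h, Fin.succAbove_of_le_castSucc _ _ (by rw [Fin.le_def]; exact not_lt.1 h)]
    rfl

theorem dmap_dl {m : ℕ} (i : Fin (m + 2)) : G2.dmap (dl m i.1) = face (m + 1) i := by
  apply ContinuousMap.ext
  intro t
  change stdSimplex.map (dl m i.1) t = stdSimplex.map i.succAbove t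
  rw [dl_coe]

theorem sn_two {A : Type*} [AddCommGroup A] [Module (ZMod 2) A] (k : ℕ) (a : A) : sn k a = a := by
  rw [sn]
  rcases Nat.even_or_odd k with h | h
  · rw [h.neg_one_pow, one_smul]
  · rw [h.neg_one_pow, neg_smul, one_smul, ← sub_eq_zero, sub_eq_add_neg, ← neg_add, ← two_smul (ZMod 2) a]
    have : (2 : ZMod 2) = 0 := rfl
    rw [this, zero_smul, neg_zero]

variable {X : Type} [TopologicalSpace X]

theorem bd2_single (p : ℕ) (σ : C(Dl (p + 2), X)) (a : ZMod 2) :
    (bd2 p (Finsupp.single σ a) : C2 p X) =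
      ∑ i : Fin (p + 2), Finsupp.single (σ.comp (face (p + 1) i)) a := by
  rw [bd2, Finsupp.linearCombination_single, Finset.smul_sum]
  refine Finset.sum_congr rfl fun i _ => ?_
  rw [Finsupp.smul_single, smul_eq_mul, mul_one]

theorem free_face (p : ℕ) (σ : C(Dl (p + 2), X)) (a : ZMod 2) (i : Fin (p + 2)) :
    (sn i.1 ((GB.free (ZMod 2) (G2.sing X)).map (dl p i.1)
      (Finsupp.single σ a : (G2.sing X).obj (p + 1) →₀ ZMod 2)) :
        (G2.sing X).obj p →₀ ZMod 2) = (Finsupp.single (σ.comp (face (p + 1) i)) a : C2 p X) := by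
  refine (@sn_two _ _ (inferInstanceAs (Module (ZMod 2) (C2 p X))) _ _).trans ?_
  refine (GB.free_map_single _ _ _ _).trans ?_
  rw [← dmap_dl]
  rfl

theorem free_d_single (p : ℕ) (σ : C(Dl (p + 2), X)) (a : ZMod 2) :
    (GB.free (ZMod 2) (G2.sing X)).d p (Finsupp.single σ a : C2 (p + 1) X) =
      (bd2 p (Finsupp.single σ a) : C2 p X) := by
  refine (GB.SMod.d_apply _ _ _).trans ?_
  refine Eq.trans ?_ (bd2_single p σ a).symm
  refine (Finset.sum_range _).trans ?_
  exact Finset.sum_congr rfl fun i _ => free_face p σ a i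

/-- the boundary of the free simplicial module of `sing X` -/
theorem free_d (p : ℕ) (z : C2 (p + 1) X) :
    (GB.free (ZMod 2) (G2.sing X)).d p z = (bd2 p z : C2 p X) := by
  induction z using Finsupp.induction_linear with
  | zero => exact (map_zero ((GB.free (ZMod 2) (G2.sing X)).d p)).trans (map_zero (bd2 p)).symm
  | add a b ha hb =>
    exact (map_add ((GB.free (ZMod 2) (G2.sing X)).d p) a b).trans
      ((congrArg₂ (· + ·) ha hb).trans (map_add (bd2 p) a b).symm)
  | single σ a => exact free_d_single p σ a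

variable {x₀ : X}

/-- **Homology mod 2 of a point with one cell.** -/
theorem hz_of_hgen {n : ℕ} {σ : C(Dl (n + 1), X)} (hz : HGen univ {x₀} n (Finsupp.single σ 1))
    (hσ : ∀ x ∈ bdD n, σ x = x₀) {k : ℕ} (hk : k + 1 ≠ n) :
    (GB.free (ZMod 2) (G2.sing X)).cx.HZ (k + 1) := by
  intro z hzc
  change C2 (k + 1) X at z
  have h0 : bd2 (X := X) k z = 0 := (free_d k z).symm.trans hzc
  obtain ⟨x, hx⟩ := red_surjective (X := X) (k + 1) z
  rw [← hx, ← red_bd] at h0
  obtain ⟨e, he⟩ := red_eq_zero h0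
  obtain ⟨g, hg⟩ := bounds_of_two hz hσ (redCyc_of_two (by rw [← he]; exact redCyc_bd k x)) he
  obtain ⟨b, hb⟩ := bounds_of_ne hz hk (k := k + 1) (c := x - (2 : ℤ) • g) (by
    change bd k _ = 0
    rw [map_sub, map_smul, hg, he, sub_self])
  refine ⟨red (k + 2) b, ?_⟩
  refine (free_d (k + 1) (red (k + 2) b)).trans ?_
  rw [← red_bd, hb, map_sub, red_two, sub_zero, hx]

/-- **Homology mod 2 of the sphere**: `H_k(Sᵈ; 𝔽₂) = 0` for `0 < k`, `k ≠ d`. -/
theorem hz_sph (d : ℕ) {k : ℕ} (h0 : 0 < k) (hk : k ≠ d) :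
    (GB.free (ZMod 2) (G2.sing (Sph d))).cx.HZ k := by
  obtain ⟨k, rfl⟩ := Nat.exists_eq_succ_of_ne_zero h0.ne'
  exact hz_of_hgen (hgen_sph d) sig_bd hk

end Vale.Agent.P263.T0.SphH
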