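import Vale.Agent.P263.T0.TopDual
import Vale.Agent.P263.T0.Small2
import Mathlib.AlgebraicTopology.SingularHomology.HomotopyInvariance

/-!
# P263, statement layer: sums of maps in homology

`H_map_add_of_cover`: if `S = U ∪ V` (open) and on `U` we have `h = f`, `g = k`, and on `V` we have
`h = g`, `f = k`, then `H(h) + H(f) + H(g) + H(k) = 0`.
-/

open CategoryTheory Limits Simplicial OnePoint Topology

namespace Vale.Agent.P263.T0

/-- Singular simplices as continuous maps. -/
noncomputable def toCont (X : TopCat.{0}) {n : ℕ} :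
    (TopCat.toSSet.obj X) _⦋n⦌ ≃ C(Small.Dl n, X) :=
  TopCat.toSSetObjEquiv X (Opposite.op (SimplexCategory.mk n))

theorem toCont_map {X Y : TopCat.{0}} (f : X ⟶ Y) {n : ℕ} (x : (TopCat.toSSet.obj X) _⦋n⦌) :
    toCont Y ((TopCat.toSSet.map f).app _ x) = f.hom.comp (toCont X x) := rfl

theorem toCont_δ (X : TopCat.{0}) {n : ℕ} (x : (TopCat.toSSet.obj X) _⦋n + 1⦌)
    (i : Fin (n + 2)) :
    toCont X ((TopCat.toSSet.obj X).δ i x) = (toCont X x).comp (Small.fc n i) := by
  apply ContinuousMap.ext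
  intro t
  rw [ContinuousMap.comp_apply, Small.fc_eq_map]
  rfl

theorem cobd_toCont (X : TopCat.{0}) {n : ℕ} (c : C(Small.Dl n, X) → ZMod 2) :
    cobd (TopCat.toSSet.obj X) (fun x => c (toCont X x)) =
      fun x => Small.cob n c (toCont X x) := by
  funext x
  show ∑ i : Fin (n + 2), c (toCont X ((TopCat.toSSet.obj X).δ i x)) = _
  simp only [toCont_δ]
  rfl

/-- A cocycle which vanishes on small simplices is a coboundary. -/
theorem isCobd_of_small (X : TopCat.{0}) {ι : Type*} {U : ι → Set X} (hU : ∀ i, IsOpen (U i))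
    (hc : ∀ x, ∃ i, x ∈ U i) {n : ℕ} (c : (TopCat.toSSet.obj X) _⦋n⦌ → ZMod 2)
    (h1 : cobd (TopCat.toSSet.obj X) c = 0)
    (h0 : ∀ x, (∃ i, ∀ t, toCont X x t ∈ U i) → c x = 0) : IsCobd (TopCat.toSSet.obj X) c := by
  cases n with
  | zero =>
    rw [isCobd_zero]
    funext x
    obtain ⟨i, hi⟩ := hc (toCont X x (stdSimplex.vertex 0))
    refine h0 x ⟨i, fun t => ?_⟩
    rwa [Subsingleton.elim t (stdSimplex.vertex 0)]
  | succ n =>
    have hcc : (fun x => (fun σ => c ((toCont X).symm σ)) (toCont X x)) = c := by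
      funext x
      simp
    obtain ⟨b, -, hb⟩ := Small.small_cochain hU hc (fun σ => c ((toCont X).symm σ))
      (by
        intro σ hσ
        refine h0 _ ?_
        simpa [Small.Sml] using hσ)
      (by
        intro τ
        have h2 := congrFun (cobd_toCont X (fun σ => c ((toCont X).symm σ))) ((toCont X).symm τ)
        simp only [hcc, Equiv.apply_symm_apply] at h2
        rw [← h2, h1]
        rfl)
    rw [isCobd_succ]
    refine ⟨fun x => b (toCont X x), ?_⟩
    rw [cobd_toCont]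
    funext x
    rw [hb]
    simp

theorem cobd_add (X : SSet.{0}) {n : ℕ} (c c' : X _⦋n⦌ → ZMod 2) :
    cobd X (c + c') = cobd X c + cobd X c' := by
  funext x
  show ∑ i, (c + c') (X.δ i x) = ∑ i, c (X.δ i x) + ∑ i, c' (X.δ i x)
  rw [← Finset.sum_add_distrib]
  rfl

theorem cocycle_add {X : SSet.{0}} {n : ℕ} {c c' : X _⦋n⦌ → ZMod 2} (h : cobd X c = 0)
    (h' : cobd X c' = 0) : cobd X (c + c') = 0 := by
  rw [cobd_add, h, h', add_zero]

/-- The evaluation of a singular cocycle on homology. -/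
noncomputable def evT (X : TopCat.{0}) {d : ℕ} (c : (TopCat.toSSet.obj X) _⦋d⦌ → ZMod 2)
    (hc : cobd (TopCat.toSSet.obj X) c = 0) : (H d).obj X ⟶ gr (ZMod 2) :=
  evH (TopCat.toSSet.obj X) c hc

theorem evT_surjective (X : TopCat.{0}) {d : ℕ} (m : (H d).obj X ⟶ gr (ZMod 2)) :
    ∃ (c : (TopCat.toSSet.obj X) _⦋d⦌ → ZMod 2) (hc : cobd (TopCat.toSSet.obj X) c = 0),
      evT X c hc = m :=
  evH_surjective _ m

theorem evT_eq_zero_iff (X : TopCat.{0}) {d : ℕ} (c : (TopCat.toSSet.obj X) _⦋d⦌ → ZMod 2)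
    (hc : cobd (TopCat.toSSet.obj X) c = 0) :
    evT X c hc = 0 ↔ IsCobd (TopCat.toSSet.obj X) c :=
  evH_eq_zero_iff _ c hc

theorem evT_add (X : TopCat.{0}) {d : ℕ} (c c' : (TopCat.toSSet.obj X) _⦋d⦌ → ZMod 2)
    (hc : cobd (TopCat.toSSet.obj X) c = 0) (hc' : cobd (TopCat.toSSet.obj X) c' = 0)
    (h : cobd (TopCat.toSSet.obj X) (c + c') = 0) :
    evT X (c + c') h = evT X c hc + evT X c' hc' :=
  evH_add _ c c' hc hc' h

theorem H_map_evT {S X : TopCat.{0}} (f : S ⟶ X) {d : ℕ}
    (c : (TopCat.toSSet.obj X) _⦋d⦌ → ZMod 2) (hc : cobd (TopCat.toSSet.obj X) c = 0) :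
    (H d).map f ≫ evT X c hc = evT S (pull (TopCat.toSSet.map f) c) (pull_cocycle _ _ hc) :=
  homologyMap_evH _ _ c hc

/-- **Sums of maps.** -/
theorem H_map_add_of_cover {S X : TopCat.{0}} (h f g k : S ⟶ X) {U V : Set S} (hU : IsOpen U)
    (hV : IsOpen V) (hUV : ∀ x, x ∈ U ∨ x ∈ V) (h1 : ∀ x ∈ U, h x = f x) (h2 : ∀ x ∈ U, g x = k x)
    (h3 : ∀ x ∈ V, h x = g x) (h4 : ∀ x ∈ V, f x = k x) (d : ℕ) :
    (H d).map h + (H d).map f + ((H d).map g + (H d).map k) = 0 := by
  rw [eq_zero_iff_dual]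
  intro l
  obtain ⟨c, hc, rfl⟩ := evT_surjective X l
  have p : ∀ f : S ⟶ X, cobd (TopCat.toSSet.obj S) (pull (TopCat.toSSet.map f) c) = 0 :=
    fun f => pull_cocycle _ _ hc
  rw [Preadditive.add_comp, Preadditive.add_comp, Preadditive.add_comp, H_map_evT, H_map_evT,
    H_map_evT, H_map_evT, ← evT_add _ _ _ (p h) (p f) (cocycle_add (p h) (p f)),
    ← evT_add _ _ _ (p g) (p k) (cocycle_add (p g) (p k)),
    ← evT_add _ _ _ _ _ (cocycle_add (cocycle_add (p h) (p f)) (cocycle_add (p g) (p k))),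
    evT_eq_zero_iff]
  have e2 : ∀ a : ZMod 2, a + a = 0 := CharTwo.add_self_eq_zero
  refine isCobd_of_small S (ι := Bool) (U := fun b => if b then U else V)
    (by rintro (_ | _) <;> simp [hU, hV]) (by
      intro x
      rcases hUV x with hx | hx
      · exact ⟨true, by simpa using hx⟩
      · exact ⟨false, by simpa using hx⟩) _
    (cocycle_add (cocycle_add (p h) (p f)) (cocycle_add (p g) (p k))) ?_
  rintro x ⟨b, hb⟩
  have key : ∀ a b : S ⟶ X, (∀ t, a (toCont S x t) = b (toCont S x t)) →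
      pull (TopCat.toSSet.map a) c x = pull (TopCat.toSSet.map b) c x := by
    intro a b hab
    rw [pull, pull]
    congr 1
    apply (toCont X).injective
    rw [toCont_map, toCont_map]
    exact ContinuousMap.ext hab
  cases b with
  | true =>
    have e1 := key h f fun t => h1 _ (by simpa using hb t)
    have e3 := key g k fun t => h2 _ (by simpa using hb t)
    show pull _ c x + pull _ c x + (pull _ c x + pull _ c x) = 0
    rw [e1, e3, e2, e2, add_zero]
  | false =>
    have e1 := key h g fun t => h3 _ (by simpa using hb t)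
    have e3 := key f k fun t => h4 _ (by simpa using hb t)
    show pull _ c x + pull _ c x + (pull _ c x + pull _ c x) = 0
    rw [e1, e3, add_comm (pull (TopCat.toSSet.map g) c x), add_add_add_comm, e2]
    rw [add_comm, e2, add_zero]

end Vale.Agent.P263.T0
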