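import Vale.Agent.P263.T0.Ball
import Vale.Agent.P263.T0.Cover

/-!
# P263, statement layer: the sum of based maps `Sᵈ → X` and additivity of `H_d`

`bsum x₀ f g` : the sum of the based maps `f g : Sᵈ ⟶ X`, `d ≥ 1`: `f` on a small ball, `g` on a
disjoint small ball, constant elsewhere.

`H_map_bsum : H_d(f + g) = H_d(f) + H_d(g)`.
-/

open CategoryTheory Limits Simplicial OnePoint Topology

set_option linter.unusedSectionVars false

namespace Vale.Agent.P263.T0

open Ball

/-- the centre of the first ball -/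
def ctr (d : ℕ) : Fin d → ℝ := fun _ => 2

theorem two_lt_norm_ctr {d : ℕ} (hd : 0 < d) : 2 < ‖ctr d - -ctr d‖ := by
  have h1 : ‖(ctr d - -ctr d) ⟨0, hd⟩‖ ≤ ‖ctr d - -ctr d‖ := norm_le_pi_norm _ _
  have h2 : (ctr d - -ctr d) ⟨0, hd⟩ = 4 := by
    show (2 : ℝ) - -2 = 4
    norm_num
  have h3 : ‖(4 : ℝ)‖ = 4 := by norm_num
  rw [h2, h3] at h1
  linarith

theorem not_mem_cb {d : ℕ} (hd : 0 < d) {x : Sph d} (h : x ∈ cb (ctr d)) : x ∉ cb (-ctr d) :=
  disjoint_cb (two_lt_norm_ctr hd) h

section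

variable {d : ℕ} {X : Type*} [TopologicalSpace X] (f g : Sph d → X)

open Classical in
/-- The sum of two based functions on the sphere `Sᵈ = (ℝᵈ)⁺`: on the closed ball of radius `1` with
centre `(-2, …, -2)` it is `g` composed with the collapse of the complement of this ball, elsewhere
it is `f` composed with the collapse of the complement of the ball of radius `1` with centre
`(2, …, 2)`. -/
noncomputable def bsumFun (x : Sph d) : X :=
  if x ∈ cb (-ctr d) then g (kap (-ctr d) x) else f (kap (ctr d) x)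

theorem bsumFun_of_not_mem {x : Sph d} (h : x ∉ cb (-ctr d)) :
    bsumFun f g x = f (kap (ctr d) x) := if_neg h

theorem bsumFun_of_not_mem' (h0 : f ∞ = g ∞) {x : Sph d}
    (h : x ∉ cb (ctr d)) : bsumFun f g x = g (kap (-ctr d) x) := by
  by_cases h2 : x ∈ cb (-ctr d)
  · exact if_pos h2
  · rw [bsumFun_of_not_mem f g h2, kap_of_not_mem h, kap_of_not_mem h2, h0]

theorem continuous_bsumFun (hd : 0 < d) (h0 : f ∞ = g ∞) (hf : Continuous f) (hg : Continuous g) :
    Continuous (bsumFun f g) := by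
  rw [continuous_iff_continuousAt]
  intro x
  by_cases h : x ∈ cb (-ctr d)
  · have h2 : x ∉ cb (ctr d) := fun h3 => not_mem_cb hd h3 h
    have : ContinuousAt (fun x => g (kap (-ctr d) x)) x :=
      (hg.comp (kap (-ctr d)).continuous).continuousAt
    refine this.congr ?_
    filter_upwards [(isClosed_cb (ctr d)).isOpen_compl.mem_nhds h2] with y hy
    exact (bsumFun_of_not_mem' f g h0 hy).symm
  · have : ContinuousAt (fun x => f (kap (ctr d) x)) x :=
      (hf.comp (kap (ctr d)).continuous).continuousAt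
    refine this.congr ?_
    filter_upwards [(isClosed_cb (-ctr d)).isOpen_compl.mem_nhds h] with y hy
    exact (bsumFun_of_not_mem f g hy).symm

theorem infty_not_mem_cb (a : Fin d → ℝ) : (∞ : Sph d) ∉ cb a := by
  rintro ⟨v, _, hv⟩
  exact OnePoint.coe_ne_infty v hv

theorem bsumFun_infty : bsumFun f g ∞ = f ∞ := by
  rw [bsumFun_of_not_mem f g (infty_not_mem_cb _)]
  rfl

end

variable {d : ℕ} {X : TopCat.{0}}

/-- The sum of two based maps `Sᵈ ⟶ X`, `d ≥ 1`. -/
noncomputable def bsum (hd : 0 < d) (f g : TopCat.of (Sph d) ⟶ X)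
    (h0 : f (∞ : Sph d) = g (∞ : Sph d)) : TopCat.of (Sph d) ⟶ X :=
  TopCat.ofHom ⟨bsumFun f g, continuous_bsumFun _ _ hd h0 f.hom.continuous g.hom.continuous⟩

theorem bsum_apply (hd : 0 < d) (f g : TopCat.of (Sph d) ⟶ X)
    (h0 : f (∞ : Sph d) = g (∞ : Sph d)) (x : Sph d) : bsum hd f g h0 x = bsumFun f g x := rfl

theorem bsum_infty (hd : 0 < d) (f g : TopCat.of (Sph d) ⟶ X)
    (h0 : f (∞ : Sph d) = g (∞ : Sph d)) : bsum hd f g h0 (∞ : Sph d) = f (∞ : Sph d) :=
  bsumFun_infty _ _

theorem H_map_homotopy {S : TopCat.{0}} {f g : S ⟶ X} (F : TopCat.Homotopy f g) (n : ℕ) :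
    (H n).map f = (H n).map g :=
  F.congr_homologyMap_singularChainComplexFunctor RF2 n

theorem H_map_kap (a : Fin d → ℝ) (f : TopCat.of (Sph d) ⟶ X) (n : ℕ) :
    (H n).map (TopCat.ofHom (kap a : C(Sph d, Sph d)) ≫ f) = (H n).map f := by
  have F : TopCat.Homotopy (𝟙 (TopCat.of (Sph d))) (TopCat.ofHom (kap a : C(Sph d, Sph d))) :=
    kapHomotopy a
  rw [Functor.map_comp, ← H_map_homotopy F n, CategoryTheory.Functor.map_id, Category.id_comp]

/-- Constant maps are zero in positive degree. -/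
theorem H_map_const {S : TopCat.{0}} (x₀ : X) {n : ℕ} (hn : n ≠ 0) :
    (H n).map (TopCat.ofHom (ContinuousMap.const S x₀) : S ⟶ X) = 0 := by
  let p : S ⟶ TopCat.of PUnit := TopCat.ofHom (ContinuousMap.const S PUnit.unit)
  let q : TopCat.of PUnit ⟶ X := TopCat.ofHom (ContinuousMap.const PUnit x₀)
  have e : (TopCat.ofHom (ContinuousMap.const S x₀) : S ⟶ X) = p ≫ q := rfl
  rw [e, Functor.map_comp]
  have hz : IsZero ((H n).obj (TopCat.of PUnit)) :=
    AlgebraicTopology.isZero_singularHomologyFunctor_of_totallyDisconnectedSpace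
      (ModuleCat.{0} (ZMod 2)) n RF2 (TopCat.of PUnit) hn
  rw [hz.eq_of_tgt ((H n).map p) 0, zero_comp]

theorem hom_add_self {A B : ModuleCat.{0} (ZMod 2)} (f : A ⟶ B) : f + f = 0 := by
  ext x
  have : f.hom x + f.hom x = (2 : ZMod 2) • f.hom x := (two_smul _ _).symm
  show f.hom x + f.hom x = 0
  rw [this, show (2 : ZMod 2) = 0 from rfl, zero_smul]

/-- **Additivity of the Hurewicz map.** -/
theorem H_map_bsum (hd : 0 < d) (f g : TopCat.of (Sph d) ⟶ X)
    (h0 : f (∞ : Sph d) = g (∞ : Sph d)) {n : ℕ} (hn : n ≠ 0) :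
    (H n).map (bsum hd f g h0) = (H n).map f + (H n).map g := by
  have h := H_map_add_of_cover (bsum hd f g h0)
    (TopCat.ofHom (kap (ctr d) : C(Sph d, Sph d)) ≫ f)
    (TopCat.ofHom (kap (-ctr d) : C(Sph d, Sph d)) ≫ g)
    (TopCat.ofHom (ContinuousMap.const (Sph d) (f (∞ : Sph d))))
    (U := (cb (-ctr d))ᶜ) (V := (cb (ctr d))ᶜ)
    (isClosed_cb _).isOpen_compl (isClosed_cb _).isOpen_compl
    (by
      intro x
      by_cases hx : x ∈ cb (-ctr d)
      · exact Or.inr fun h3 => not_mem_cb hd h3 hx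
      · exact Or.inl hx)
    (fun x hx => bsumFun_of_not_mem _ _ hx)
    (by
      intro x hx
      show g (kap (-ctr d) x) = f (∞ : Sph d)
      rw [kap_of_not_mem hx, h0])
    (fun x hx => bsumFun_of_not_mem' _ _ h0 hx)
    (by
      intro x hx
      show f (kap (ctr d) x) = f (∞ : Sph d)
      rw [kap_of_not_mem hx])
    n
  have hk : (H n).map (TopCat.ofHom (ContinuousMap.const (Sph d) (f (∞ : Sph d))) :
      TopCat.of (Sph d) ⟶ X) = 0 := H_map_const (S := TopCat.of (Sph d)) _ hn
  rw [H_map_kap, H_map_kap] at h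
  have h : (H n).map (bsum hd f g h0) + (H n).map f + ((H n).map g +
      (H n).map (TopCat.ofHom (ContinuousMap.const (Sph d) (f (∞ : Sph d))) :
      TopCat.of (Sph d) ⟶ X)) = 0 := h
  rw [hk, add_zero] at h
  have h2 : (H n).map (bsum hd f g h0) =
      ((H n).map (bsum hd f g h0) + (H n).map f + (H n).map g) + ((H n).map f + (H n).map g) := by
    have e1 := hom_add_self ((H n).map f)
    have e2 := hom_add_self ((H n).map g)
    calc (H n).map (bsum hd f g h0)
        = (H n).map (bsum hd f g h0) + ((H n).map f + (H n).map f) +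
          ((H n).map g + (H n).map g) := by rw [e1, e2, add_zero, add_zero]
      _ = _ := by abel
  rw [h2, h, zero_add]

end Vale.Agent.P263.T0
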