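import Vale.Agent.P263.T0.Based
import Vale.Agent.P263.T0.Dual

/-!
# P263, statement layer: the functor `H d` in terms of cochains
-/

open CategoryTheory Limits Simplicial OnePoint Topology

namespace Vale.Agent.P263.T0

theorem H_map_eq (d : ℕ) {X Y : TopCat.{0}} (g : X ⟶ Y) :
    (H d).map g = SSet.homologyMap (TopCat.toSSet.map g) RF2 d := rfl

/-- `H_d(g) = 0` iff the pull back of every singular `d`-cocycle is a coboundary. -/
theorem H_map_eq_zero_iff (d : ℕ) {X Y : TopCat.{0}} (g : X ⟶ Y) :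
    (H d).map g = 0 ↔ ∀ c : (TopCat.toSSet.obj Y) _⦋d⦌ → ZMod 2,
      cobd (TopCat.toSSet.obj Y) c = 0 →
        IsCobd (TopCat.toSSet.obj X) (pull (TopCat.toSSet.map g) c) :=
  homologyMap_eq_zero_iff _ _ d

/-- Based maps `Sᵈ → Q₀S⁰` come from based maps to the base component of some `Ωʳ Sʳ`. -/
theorem exists_factor_hom {d : ℕ} (hd : 0 < d) (g : TopCat.of (Sph d) ⟶ Q0S0)
    (hg : g (∞ : Sph d) = base0) (N : ℕ) :
    ∃ (r : ℕ) (_ : N ≤ r) (f : TopCat.of (Sph d) ⟶ Om0 r), f (∞ : Sph d) = Om0.base r ∧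
      f ≫ toQ0 r = g := by
  obtain ⟨r, hr, f, hf, hfg⟩ := exists_factor_sph hd g.hom hg N
  exact ⟨r, hr, TopCat.ofHom f, hf, TopCat.hom_ext (ContinuousMap.ext hfg)⟩

/-- If the maps `Sᵈ → Ωʳ₀ Sʳ` vanish in homology for all large `r`, then so do the maps
`Sᵈ → Q₀S⁰`. -/
theorem H_map_eq_zero_of_stage {d : ℕ} (hd : 0 < d) (g : TopCat.of (Sph d) ⟶ Q0S0)
    (hg : g (∞ : Sph d) = base0) (N : ℕ)
    (key : ∀ r, N ≤ r → ∀ f : TopCat.of (Sph d) ⟶ Om0 r, f (∞ : Sph d) = Om0.base r →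
      f ≫ toQ0 r = g → (H d).map f = 0) :
    (H d).map g = 0 := by
  obtain ⟨r, hr, f, hf, rfl⟩ := exists_factor_hom hd g hg N
  rw [Functor.map_comp, key r hr f hf rfl, zero_comp]

end Vale.Agent.P263.T0
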