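import Vale.Agent.P263.T0.SphC
import Vale.Agent.P263.T0.TopDual
import Mathlib.Analysis.SpecialFunctions.Log.Basic

/-!
# P263, statement layer: the homology of the spheres `Sph d`

* `sig d : C(Dl (d + 1), Sph d)` the characteristic simplex (it collapses the boundary to `∞`).
* `hgen_sph` integral homology of the pair `(Sph d, ∞)`.
* `isCobd_of_ne`, `eq_const_of_zero`, `isCobd_iff`, `exists_cocycle_one` : the cohomology of
  `TopCat.toSSet.obj (TopCat.of (Sph d))`, functions on simplices with values in `ZMod 2`.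
* `finrank_H_Sph`, `subsingleton_H_Sph`, `iota`, `H_map_eq_zero_iff_iota`, `H_map_eq_zero_iff_sig`.
-/

open OnePoint Topology Set Vale.Agent.P246.T

namespace Vale.Agent.P263.T0.SphH

/-! ### The characteristic simplex of the sphere -/

theorem isClosed_bdD (n : ℕ) : IsClosed (bdD n) := by
  have : bdD n = ⋃ i : Fin (n + 1), {x : Dl (n + 1) | x i = 0} := by
    ext x
    simp [bdD]
  rw [this]
  refine isClosed_iUnion_of_finite fun i => isClosed_eq ?_ continuous_const
  exact (continuous_apply i).comp continuous_subtype_val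

/-- the numerators of the soft maximum -/
noncomputable def nu {d : ℕ} (u : Fin d → ℝ) : Fin (d + 1) → ℝ :=
  Fin.cons 1 fun j => Real.exp (u j)

theorem nu_pos {d : ℕ} (u : Fin d → ℝ) (i : Fin (d + 1)) : 0 < nu u i := by
  refine Fin.cases ?_ (fun j => ?_) i
  · exact one_pos
  · exact Real.exp_pos _

theorem sum_nu_pos {d : ℕ} (u : Fin d → ℝ) : 0 < ∑ i, nu u i :=
  Finset.sum_pos (fun i _ => nu_pos u i) Finset.univ_nonempty

theorem continuous_nu (d : ℕ) (i : Fin (d + 1)) : Continuous fun u : Fin d → ℝ => nu u i := by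
  refine Fin.cases ?_ (fun j => ?_) i
  · exact continuous_const
  · exact Real.continuous_exp.comp (continuous_apply j)

/-- the soft maximum -/
noncomputable def sm {d : ℕ} (u : Fin d → ℝ) : Dl (d + 1) :=
  ⟨fun i => nu u i / ∑ i, nu u i, fun i => (div_pos (nu_pos u i) (sum_nu_pos u)).le, by
    rw [← Finset.sum_div, div_self (sum_nu_pos u).ne']⟩

theorem sm_apply {d : ℕ} (u : Fin d → ℝ) (i : Fin (d + 1)) : sm u i = nu u i / ∑ i, nu u i := rfl

theorem continuous_sm (d : ℕ) : Continuous (sm (d := d)) := by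
  refine Continuous.subtype_mk (continuous_pi fun i => ?_) _
  exact (continuous_nu d i).div (continuous_finsetSum _ fun j _ => continuous_nu d j)
    fun u => (sum_nu_pos u).ne'

theorem sm_notMem {d : ℕ} (u : Fin d → ℝ) : sm u ∉ bdD d := by
  rintro ⟨i, hi⟩
  rw [sm_apply] at hi
  exact (div_pos (nu_pos u i) (sum_nu_pos u)).ne' hi

/-- the logarithmic coordinates -/
noncomputable def lg {d : ℕ} (x : Dl (d + 1)) : Fin d → ℝ := fun j =>
  Real.log (x j.succ) - Real.log (x 0)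

theorem lg_sm {d : ℕ} (u : Fin d → ℝ) : lg (sm u) = u := by
  funext j
  have h := sum_nu_pos u
  rw [lg, sm_apply, sm_apply, Real.log_div (nu_pos u _).ne' h.ne',
    Real.log_div (nu_pos u _).ne' h.ne']
  have h1 : nu u j.succ = Real.exp (u j) := rfl
  have h0 : nu u 0 = 1 := rfl
  rw [h1, h0, Real.log_exp, Real.log_one]
  ring

theorem sm_lg {d : ℕ} {x : Dl (d + 1)} (hx : x ∉ bdD d) : sm (lg x) = x := by
  have hp : ∀ i, 0 < x i := fun i =>
    lt_of_le_of_ne (stdSimplex.zero_le x i) fun h => hx ⟨i, h.symm⟩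
  have h1 : ∀ i, nu (lg x) i = x i / x 0 := by
    intro i
    refine Fin.cases ?_ (fun j => ?_) i
    · rw [div_self (hp 0).ne']; rfl
    · change Real.exp (Real.log (x j.succ) - Real.log (x 0)) = _
      rw [Real.exp_sub, Real.exp_log (hp _), Real.exp_log (hp _)]
  apply stdSimplex.ext
  funext i
  change sm (lg x) i = x i
  rw [sm_apply]
  simp only [h1]
  rw [← Finset.sum_div, stdSimplex.sum_eq_one]
  have := (hp 0).ne'
  field_simp

theorem continuousOn_lg (d : ℕ) : Continuous fun x : {x : Dl (d + 1) // x ∉ bdD d} => lg x.1 := by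
  refine continuous_pi fun j => ?_
  have hc : ∀ i : Fin (d + 1), Continuous fun x : {x : Dl (d + 1) // x ∉ bdD d} => x.1 i :=
    fun i => (continuous_apply i).comp (continuous_subtype_val.comp continuous_subtype_val)
  exact ((hc j.succ).log fun x h => x.2 ⟨_, h⟩).sub ((hc 0).log fun x h => x.2 ⟨_, h⟩)

/-- `ℝᵈ` is the interior of the simplex. -/
noncomputable def smH (d : ℕ) : (Fin d → ℝ) ≃ₜ {x : Dl (d + 1) // x ∉ bdD d} where
  toFun u := ⟨sm u, sm_notMem u⟩
  invFun x := lg x.1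
  left_inv u := lg_sm u
  right_inv x := Subtype.ext (sm_lg x.2)
  continuous_toFun := (continuous_sm d).subtype_mk _
  continuous_invFun := continuousOn_lg d

theorem isOpenEmbedding_sm (d : ℕ) : IsOpenEmbedding (sm (d := d)) :=
  (isClosed_bdD d).isOpen_compl.isOpenEmbedding_subtypeVal.comp (smH d).isOpenEmbedding

instance (k : ℕ) : LocallyCompactSpace (Dl (k + 1)) :=
  (isClosed_stdSimplex ℝ (Fin (k + 1))).locallyCompactSpace

/-- The characteristic simplex `Δᵈ → Δᵈ/∂Δᵈ = Sᵈ`. -/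
noncomputable def sig (d : ℕ) : C(Dl (d + 1), Sph d) where
  toFun x := P251.G.LC.collapseFun (X := P251.G.LC.of (Dl (d + 1)))
    (Y := P251.G.LC.of (Fin d → ℝ)) (sm (d := d)) (x : OnePoint (Dl (d + 1)))
  continuous_toFun := (P251.G.LC.continuous_collapseFun (X := P251.G.LC.of (Dl (d + 1)))
    (Y := P251.G.LC.of (Fin d → ℝ)) (isOpenEmbedding_sm d)).comp OnePoint.continuous_coe

theorem sig_of_mem {d : ℕ} {x : Dl (d + 1)} (hx : x ∈ bdD d) : sig d x = ∞ :=
  P251.G.LC.collapseFun_of_notMem (X := P251.G.LC.of (Dl (d + 1)))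
    (Y := P251.G.LC.of (Fin d → ℝ)) (by rintro ⟨u, rfl⟩; exact sm_notMem u hx)

theorem sig_sm {d : ℕ} (u : Fin d → ℝ) : sig d (sm u) = (u : Sph d) :=
  P251.G.LC.collapseFun_coe_of_injective (X := P251.G.LC.of (Dl (d + 1)))
    (Y := P251.G.LC.of (Fin d → ℝ)) (isOpenEmbedding_sm d).injective u

theorem sig_of_notMem {d : ℕ} {x : Dl (d + 1)} (hx : x ∉ bdD d) : sig d x = (lg x : Sph d) := by
  conv_lhs => rw [← sm_lg hx]
  exact sig_sm _

/-- The integral homology of the sphere. -/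
theorem hgen_sph (d : ℕ) : HGen (univ : Set (Sph d)) {∞} d (Finsupp.single (sig d) 1) := by
  refine hgen_simplex isClosed_singleton (sig d) (fun x hx => sig_of_mem hx) ?_ ?_ ?_
  · intro x hx h
    rw [sig_of_notMem hx] at h
    exact OnePoint.coe_ne_infty _ h
  · intro x y hx hy h
    rw [sig_of_notMem hx, sig_of_notMem hy] at h
    rw [← sm_lg hx, ← sm_lg hy, OnePoint.coe_injective h]
  · symm
    rw [eq_univ_iff_forall]
    intro z
    induction z using OnePoint.rec with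
    | infty => exact Or.inl rfl
    | coe u => exact Or.inr ⟨sm u, sig_sm u⟩


theorem sig_bd {d : ℕ} : ∀ x ∈ bdD d, sig d x = ∞ := fun _ hx => sig_of_mem hx

end Vale.Agent.P263.T0.SphH

open CategoryTheory Limits Simplicial OnePoint Topology Vale.Agent.P246.T

namespace Vale.Agent.P263.T0.SphH

/-! ### Singular simplices in Mathlib's language -/

section Tr

variable (X : Type) [TopologicalSpace X]

/-- The simplex of `TopCat.toSSet` of a continuous map. -/
noncomputable def mkS {n : ℕ} (τ : C(Dl (n + 1), X)) :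
    (TopCat.toSSet.obj (TopCat.of X)) _⦋n⦌ :=
  ((TopCat.of X).toSSetObjEquiv (Opposite.op ⦋n⦌)).symm τ

/-- The continuous map of a simplex of `TopCat.toSSet`. -/
noncomputable def unS {n : ℕ} (x : (TopCat.toSSet.obj (TopCat.of X)) _⦋n⦌) :
    C(Dl (n + 1), X) :=
  (TopCat.of X).toSSetObjEquiv (Opposite.op ⦋n⦌) x

variable {X}

theorem mkS_unS {n : ℕ} (x : (TopCat.toSSet.obj (TopCat.of X)) _⦋n⦌) : mkS X (unS X x) = x :=
  ((TopCat.of X).toSSetObjEquiv (Opposite.op ⦋n⦌)).symm_apply_apply x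

theorem unS_mkS {n : ℕ} (τ : C(Dl (n + 1), X)) : unS X (mkS X τ) = τ :=
  ((TopCat.of X).toSSetObjEquiv (Opposite.op ⦋n⦌)).apply_symm_apply τ

theorem δ_mkS {n : ℕ} (τ : C(Dl (n + 2), X)) (i : Fin (n + 2)) :
    (TopCat.toSSet.obj (TopCat.of X)).δ i (mkS X τ) = mkS X (τ.comp (face (n + 1) i)) :=
  rfl

/-- the function on continuous maps -/
noncomputable def fn {n : ℕ} (c : (TopCat.toSSet.obj (TopCat.of X)) _⦋n⦌ → ZMod 2)
    (τ : C(Dl (n + 1), X)) : ZMod 2 := c (mkS X τ)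

theorem cob_fn {n : ℕ} (c : (TopCat.toSSet.obj (TopCat.of X)) _⦋n⦌ → ZMod 2) :
    cob (fn c) = fn (cobd (TopCat.toSSet.obj (TopCat.of X)) c) := by
  funext τ
  exact Finset.sum_congr rfl fun i _ => congrArg c (δ_mkS τ i).symm

theorem fn_eq_zero_iff {n : ℕ} (c : (TopCat.toSSet.obj (TopCat.of X)) _⦋n⦌ → ZMod 2) :
    fn c = 0 ↔ c = 0 := by
  constructor
  · intro h
    funext x
    rw [← mkS_unS x]
    exact congrFun h _
  · rintro rfl
    rfl

theorem fn_injective {n : ℕ} {c c' : (TopCat.toSSet.obj (TopCat.of X)) _⦋n⦌ → ZMod 2}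
    (h : fn c = fn c') : c = c' := by
  funext x
  rw [← mkS_unS x]
  exact congrFun h _

theorem exists_fn {n : ℕ} (f : C(Dl (n + 1), X) → ZMod 2) :
    ∃ c : (TopCat.toSSet.obj (TopCat.of X)) _⦋n⦌ → ZMod 2, fn c = f :=
  ⟨fun x => f (unS X x), funext fun τ => congrArg f (unS_mkS τ)⟩

theorem cob_eq_zero_iff {n : ℕ} (c : (TopCat.toSSet.obj (TopCat.of X)) _⦋n⦌ → ZMod 2) :
    cob (fn c) = 0 ↔ cobd (TopCat.toSSet.obj (TopCat.of X)) c = 0 := by
  rw [cob_fn, fn_eq_zero_iff]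

theorem isCobd_iff_exists {n : ℕ} (c : (TopCat.toSSet.obj (TopCat.of X)) _⦋n + 1⦌ → ZMod 2) :
    IsCobd (TopCat.toSSet.obj (TopCat.of X)) c ↔ ∃ g, fn c = cob g := by
  rw [isCobd_succ]
  constructor
  · rintro ⟨b, rfl⟩
    exact ⟨fn b, (cob_fn b).symm⟩
  · rintro ⟨g, hg⟩
    obtain ⟨b, rfl⟩ := exists_fn g
    exact ⟨b, fn_injective (by rw [hg, cob_fn])⟩

end Tr

/-! ### The spheres -/

section Sphere

/-- the singular set of the sphere -/
noncomputable abbrev SS (d : ℕ) : SSet.{0} := TopCat.toSSet.obj (TopCat.of (Sph d))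

/-- the characteristic simplex -/
noncomputable def sigS (d : ℕ) : (SS d) _⦋d⦌ := mkS (Sph d) (sig d)

/-- the constant simplex at `∞` -/
noncomputable def cstS (d n : ℕ) : (SS d) _⦋n⦌ := mkS (Sph d) (ContinuousMap.const _ ∞)

/-- (S0) `Hⁿ(Sᵈ; 𝔽₂) = 0` for `0 < n ≠ d`. -/
theorem isCobd_of_ne {d n : ℕ} (hn : 0 < n) (hd : n ≠ d) (c : (SS d) _⦋n⦌ → ZMod 2)
    (hc : cobd (SS d) c = 0) : IsCobd (SS d) c := by
  obtain ⟨k, rfl⟩ : ∃ k, n = k + 1 := ⟨n - 1, by omega⟩
  rw [isCobd_iff_exists]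
  exact cob_of_ne (hgen_sph d) sig_bd hd ((cob_eq_zero_iff c).2 hc)

/-- (S0) `H⁰(Sᵈ; 𝔽₂)` consists of the constant functions, for `d > 0`. -/
theorem eq_const_of_zero {d : ℕ} (hd : 0 < d) (c : (SS d) _⦋0⦌ → ZMod 2)
    (hc : cobd (SS d) c = 0) (x : (SS d) _⦋0⦌) : c x = c (cstS d 0) := by
  have := const_of_zero (hgen_sph d) hd.ne (f := fn c) ((cob_eq_zero_iff c).2 hc) (unS _ x)
  rw [fn, mkS_unS] at this
  exact this

/-- (S1) A `d`-cocycle is a coboundary iff it vanishes on the fundamental cycle. -/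
theorem isCobd_iff {d : ℕ} (hd : 0 < d) (c : (SS d) _⦋d⦌ → ZMod 2) (hc : cobd (SS d) c = 0) :
    IsCobd (SS d) c ↔ c (sigS d) + c (cstS d d) = 0 := by
  obtain ⟨k, rfl⟩ : ∃ k, d = k + 1 := ⟨d - 1, by omega⟩
  rw [isCobd_iff_exists]
  exact cob_iff (hgen_sph (k + 1)) sig_bd ((cob_eq_zero_iff c).2 hc)

/-- (S1) The fundamental cocycle. -/
theorem exists_cocycle_one (d : ℕ) : ∃ c : (SS d) _⦋d⦌ → ZMod 2, cobd (SS d) c = 0 ∧
    c (sigS d) + c (cstS d d) = 1 := by
  obtain ⟨f, h1, h2⟩ := exists_fund_cocycle (hgen_sph d) sig_bd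
  obtain ⟨c, rfl⟩ := exists_fn f
  exact ⟨c, (cob_eq_zero_iff c).1 h1, h2⟩

/-- (S2) `H_k(Sᵈ; 𝔽₂) = 0` for `0 < k ≠ d`. -/
theorem subsingleton_H_Sph {d k : ℕ} (hk : 0 < k) (hd : k ≠ d) :
    Subsingleton ((H k).obj (TopCat.of (Sph d)) : ModuleCat.{0} (ZMod 2)) :=
  (homology_subsingleton_iff (SS d) k).2 fun c hc => isCobd_of_ne hk hd c hc

/-- The map in homology is zero iff the cocycles vanish on the image of the fundamental cycle. -/
theorem H_map_eq_zero_iff_sig {d : ℕ} (hd : 0 < d) {Y : TopCat.{0}} (g : TopCat.of (Sph d) ⟶ Y) :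
    (H d).map g = 0 ↔ ∀ c : (TopCat.toSSet.obj Y) _⦋d⦌ → ZMod 2,
      cobd (TopCat.toSSet.obj Y) c = 0 →
        c ((TopCat.toSSet.map g).app _ (sigS d)) +
          c ((TopCat.toSSet.map g).app _ (cstS d d)) = 0 := by
  rw [H_map_eq_zero_iff]
  refine forall₂_congr fun c hc => ?_
  rw [isCobd_iff hd _ (pull_cocycle _ _ hc)]
  rfl

theorem zmod_two (a : ZMod 2) : a = 0 ∨ a = 1 := by
  revert a
  decide

/-- every linear form on `H_d(Sᵈ)` is zero or the evaluation of the fundamental cocycle -/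
theorem dual_cases {d : ℕ} (hd : 0 < d) {c₀ : (SS d) _⦋d⦌ → ZMod 2} (hc₀ : cobd (SS d) c₀ = 0)
    (h₀ : c₀ (sigS d) + c₀ (cstS d d) = 1)
    (l : (SS d).homology RF2 d ⟶ RF2) : l = 0 ∨ l = evH (SS d) c₀ hc₀ := by
  obtain ⟨c, hc, rfl⟩ := evH_surjective (SS d) l
  rcases zmod_two (c (sigS d) + c (cstS d d)) with h | h
  · left
    exact (evH_eq_zero_iff (SS d) c hc).2 ((isCobd_iff hd c hc).2 h)
  · right
    have h3 : cobd (SS d) (c + c₀) = 0 := by
      have : cobd (SS d) (c + c₀) = cobd (SS d) c + cobd (SS d) c₀ := by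
        funext x
        show ∑ i, (c + c₀) _ = ∑ i, c _ + ∑ i, c₀ _
        rw [← Finset.sum_add_distrib]
        rfl
      rw [this, hc, hc₀, add_zero]
    have h4 : evH (SS d) (c + c₀) h3 = 0 := by
      rw [evH_eq_zero_iff, isCobd_iff hd _ h3, Pi.add_apply, Pi.add_apply, add_add_add_comm, h, h₀]
      rfl
    rw [evH_add (SS d) c c₀ hc hc₀ h3] at h4
    ext x
    have := LinearMap.congr_fun (congrArg ModuleCat.Hom.hom h4) x
    exact CharTwo.add_eq_zero.1 this

theorem exists_iota {d : ℕ} (hd : 0 < d) :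
    ∃ z : ((SS d).homology RF2 d : ModuleCat.{0} (ZMod 2)), z ≠ 0 ∧
      (∀ x, x = 0 ∨ x = z) ∧ ∀ (c : (SS d) _⦋d⦌ → ZMod 2) (hc : cobd (SS d) c = 0),
        (evH (SS d) c hc).hom z = c (sigS d) + c (cstS d d) := by
  obtain ⟨c₀, hc₀, h₀⟩ := exists_cocycle_one d
  have hne : evH (SS d) c₀ hc₀ ≠ 0 := by
    rw [Ne, evH_eq_zero_iff, isCobd_iff hd _ hc₀, h₀]
    exact one_ne_zero
  obtain ⟨z, hz⟩ : ∃ z : ((SS d).homology RF2 d : ModuleCat.{0} (ZMod 2)),
      (evH (SS d) c₀ hc₀).hom z ≠ 0 := by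
    by_contra h
    push Not at h
    apply hne
    ext x
    exact h x
  have hz1 : (evH (SS d) c₀ hc₀).hom z = (1 : ZMod 2) :=
    (zmod_two _).resolve_left hz
  refine ⟨z, fun h => hz (by rw [h]; exact map_zero _), fun x => ?_, fun c hc => ?_⟩
  · rcases zmod_two ((evH (SS d) c₀ hc₀).hom x) with h | h
    · left
      rw [← Module.forall_dual_apply_eq_zero_iff (ZMod 2)]
      intro l
      rcases dual_cases hd hc₀ h₀ (ModuleCat.ofHom l) with h1 | h1
      · exact LinearMap.congr_fun (congrArg ModuleCat.Hom.hom h1) x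
      · have := LinearMap.congr_fun (congrArg ModuleCat.Hom.hom h1) x
        exact this.trans h
    · right
      rw [← sub_eq_zero, ← Module.forall_dual_apply_eq_zero_iff (ZMod 2)]
      intro l
      rcases dual_cases hd hc₀ h₀ (ModuleCat.ofHom l) with h1 | h1
      · exact LinearMap.congr_fun (congrArg ModuleCat.Hom.hom h1) (x - z)
      · have h5 := LinearMap.congr_fun (congrArg ModuleCat.Hom.hom h1) (x - z)
        refine h5.trans ((map_sub (evH (SS d) c₀ hc₀).hom x z).trans ?_)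
        rw [h, hz1, sub_self]
  · rcases dual_cases hd hc₀ h₀ (evH (SS d) c hc) with h1 | h1
    · have h2 : c (sigS d) + c (cstS d d) = 0 :=
        (isCobd_iff hd c hc).1 ((evH_eq_zero_iff (SS d) c hc).1 h1)
      rw [h2, h1]
      rfl
    · rw [h1, hz1]
      have h3 : ¬ IsCobd (SS d) c := by
        rw [← evH_eq_zero_iff (SS d) c hc, h1]
        exact hne
      rw [isCobd_iff hd _ hc] at h3
      exact ((zmod_two _).resolve_left h3).symm

/-- (S2) THE FUNDAMENTAL CLASS of the sphere -/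
noncomputable def iota {d : ℕ} (hd : 0 < d) :
    ((H d).obj (TopCat.of (Sph d)) : ModuleCat.{0} (ZMod 2)) := (exists_iota hd).choose

theorem iota_ne_zero {d : ℕ} (hd : 0 < d) : iota hd ≠ 0 := (exists_iota hd).choose_spec.1

theorem eq_zero_or_iota {d : ℕ} (hd : 0 < d)
    (x : ((H d).obj (TopCat.of (Sph d)) : ModuleCat.{0} (ZMod 2))) : x = 0 ∨ x = iota hd :=
  (exists_iota hd).choose_spec.2.1 x

theorem evH_iota {d : ℕ} (hd : 0 < d) (c : (SS d) _⦋d⦌ → ZMod 2) (hc : cobd (SS d) c = 0) :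
    (evH (SS d) c hc).hom (iota hd) = c (sigS d) + c (cstS d d) :=
  (exists_iota hd).choose_spec.2.2 c hc

theorem finrank_H_Sph {d : ℕ} (hd : 0 < d) :
    Module.finrank (ZMod 2) ((H d).obj (TopCat.of (Sph d)) : ModuleCat.{0} (ZMod 2)) = 1 := by
  rw [finrank_eq_one_iff']
  refine ⟨iota hd, iota_ne_zero hd, fun x => ?_⟩
  rcases eq_zero_or_iota hd x with h | h
  · exact ⟨0, by rw [h, zero_smul]⟩
  · exact ⟨1, by rw [h, one_smul]⟩

/-- (S2) The map in homology is determined by the image of the fundamental class. -/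
theorem H_map_eq_zero_iff_iota {d : ℕ} (hd : 0 < d) {Y : TopCat.{0}}
    (g : TopCat.of (Sph d) ⟶ Y) : (H d).map g = 0 ↔ ((H d).map g).hom (iota hd) = 0 := by
  constructor
  · intro h
    rw [h]
    rfl
  · intro h
    ext x
    rcases eq_zero_or_iota hd x with h1 | h1
    · rw [h1, map_zero, map_zero]
    · rw [h1, h]
      rfl

end Sphere

end Vale.Agent.P263.T0.SphH
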