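import Vale.Agent.P263.T0.Defs

/-!
# P263, statement layer: pointed families of maps and the exponential law

A pointed map `g : X⁺ → Ωʳ Sʳ` is the same as a pointed map `(X × ℝʳ)⁺ → (ℝʳ)⁺`
(`X` locally compact Hausdorff, `X⁺ = OnePoint X`).

* `adj g : X ⊗ ℝʳ ⟶ ℝʳ` in the category `LC` of `P251`;
* `unadj F` : the inverse;
* `adj_precomp`, `adj_stab` : compatibility with maps of `X` and with the stabilization.
-/

open CategoryTheory MonoidalCategory OnePoint Topology
open Vale.Agent.P251.G (LC)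
open Vale.Agent.P251.G.LC (smash)

namespace Vale.Agent.P263.T0

/-- the space `ℝʳ` as an object of `LC` -/
abbrev RR (r : ℕ) : LC := LC.of (Fin r → ℝ)

theorem Om.map_infty {r : ℕ} (f : Om r) : f (∞ : Sph r) = ∞ := f.2

theorem Om.ext {r : ℕ} {f g : Om r} (h : ∀ z : Sph r, f z = g z) : f = g :=
  Subtype.ext (ContinuousMap.ext h)

@[simp] theorem Om.const_apply (r : ℕ) (z : Sph r) : Om.const r z = ∞ := rfl

theorem continuous_uncurry_Om {T : Type*} [TopologicalSpace T] {r : ℕ} {g : T → Om r}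
    (hg : Continuous g) : Continuous (fun p : T × Sph r => g p.1 p.2) :=
  ContinuousEval.continuous_eval.comp
    ((continuous_subtype_val.comp (hg.comp continuous_fst)).prodMk continuous_snd)

theorem continuous_Om_of_uncurry {T : Type*} [TopologicalSpace T] {r : ℕ} {g : T → Om r}
    (hg : Continuous (fun p : T × Sph r => g p.1 p.2)) : Continuous g :=
  Continuous.subtype_mk (f := fun t => (g t).1)
    (ContinuousMap.continuous_of_continuous_uncurry _ hg) (fun t => (g t).2)

theorem continuous_Om_iff {T : Type*} [TopologicalSpace T] {r : ℕ} {g : T → Om r} :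
    Continuous g ↔ Continuous (fun p : T × Sph r => g p.1 p.2) :=
  ⟨continuous_uncurry_Om, continuous_Om_of_uncurry⟩

variable {X Y : LC} {r : ℕ}

/-- The map `(X × ℝʳ)⁺ → (ℝʳ)⁺` of a pointed family `X⁺ → Ωʳ Sʳ`. -/
def adj (g : C(OnePoint X, Om r)) (hg : g ∞ = Om.const r) : X ⊗ RR r ⟶ RR r :=
  LC.lift₂ (X := X) (Y := RR r) (Z := RR r) (fun p => g p.1 p.2) (continuous_uncurry_Om g.continuous)
    (fun b => by simp only; rw [hg]; rfl) (fun a => (g a).2)

theorem app_adj_smash (g : C(OnePoint X, Om r)) (hg : g ∞ = Om.const r) (x : OnePoint X)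
    (v : Sph r) : LC.app (adj g hg) (smash x v) = g x v :=
  LC.app_lift₂_smash (X := X) (Y := RR r) (Z := RR r) _ _ _ _ x v

/-- The pointed family `X⁺ → Ωʳ Sʳ` of a map `(X × ℝʳ)⁺ → (ℝʳ)⁺`. -/
def unadj (F : X ⊗ RR r ⟶ RR r) : C(OnePoint X, Om r) where
  toFun x := ⟨⟨fun v => LC.app F (smash x v), (LC.continuous_app F).comp
    (LC.continuous_smash.comp (continuous_const.prodMk continuous_id))⟩, by
      show LC.app F (smash x ∞) = ∞
      rw [LC.smash_infty_right]; exact LC.app_infty F⟩
  continuous_toFun := continuous_Om_of_uncurry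
    ((LC.continuous_app F).comp LC.continuous_smash)

theorem unadj_apply (F : X ⊗ RR r ⟶ RR r) (x : OnePoint X) (v : Sph r) :
    unadj F x v = LC.app F (smash x v) := rfl

theorem unadj_infty (F : X ⊗ RR r ⟶ RR r) : unadj F ∞ = Om.const r :=
  Om.ext fun v => by
    rw [unadj_apply, LC.smash_infty_left]
    exact LC.app_infty F

theorem unadj_adj (g : C(OnePoint X, Om r)) (hg : g ∞ = Om.const r) : unadj (adj g hg) = g :=
  ContinuousMap.ext fun x => Om.ext fun v => by rw [unadj_apply, app_adj_smash]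

theorem adj_unadj (F : X ⊗ RR r ⟶ RR r) : adj (unadj F) (unadj_infty F) = F :=
  LC.tensor_ext fun x v => by rw [app_adj_smash, unadj_apply]

/-- Naturality in `X`. -/
theorem adj_precomp (f : X ⟶ Y) (g : C(OnePoint Y, Om r)) (hg : g ∞ = Om.const r) :
    adj (g.comp (LC.Hom.toMap f)) (by rw [ContinuousMap.comp_apply, f.map_infty, hg]) =
      (f ▷ RR r) ≫ adj g hg :=
  LC.tensor_ext fun x v => by
    rw [app_adj_smash, LC.app_comp, LC.app_whiskerRight_smash, app_adj_smash]
    rfl

/-- The homeomorphism `ℝʳ × ℝ = ℝ^{r+1}` in `LC`. -/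
def snocIso (r : ℕ) : RR r ⊗ LC.of ℝ ≅ RR (r + 1) :=
  LC.ofHomeo (X := LC.of ((Fin r → ℝ) × ℝ)) (Y := RR (r + 1)) (snocHomeo r)

theorem app_snocIso_hom_smash (r : ℕ) (v : Sph r) (t : OnePoint ℝ) :
    LC.app (snocIso r).hom (smash v t) = toSmash r (v, t) := by
  induction v using OnePoint.rec with
  | infty => rw [LC.smash_infty_left, toSmash_infty_left]; exact LC.app_infty _
  | coe v =>
    induction t using OnePoint.rec with
    | infty => rw [LC.smash_infty_right, toSmash_infty_right]; exact LC.app_infty _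
    | coe t => rfl

theorem stab_apply (r : ℕ) (f : Om r) (z : Sph (r + 1)) : stab r f z = stabFun f z := rfl

theorem stab_const (r : ℕ) : stab r (Om.const r) = Om.const (r + 1) :=
  Om.ext fun z => by
    rw [stab_apply]
    induction z using OnePoint.rec with
    | infty => rfl
    | coe v => rfl

theorem stab_toSmash (r : ℕ) (f : Om r) (v : Sph r) (t : OnePoint ℝ) :
    stab r f (toSmash r (v, t)) = toSmash r (f v, t) := by
  rw [stab_apply, stabFun_toSmash _ f.2]

/-- **The stabilization** is the product with the identity of `ℝ`. -/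
theorem adj_stab (g : C(OnePoint X, Om r)) (hg : g ∞ = Om.const r) :
    (X ◁ (snocIso r).hom) ≫ adj ((stab r).comp g)
        (by rw [ContinuousMap.comp_apply, hg, stab_const]) =
      (α_ X (RR r) (LC.of ℝ)).inv ≫ (adj g hg ▷ LC.of ℝ) ≫ (snocIso r).hom := by
  refine LC.tensor_ext fun x z => ?_
  obtain ⟨v, t⟩ := z
  change LC.app (X := X ⊗ (RR r ⊗ LC.of ℝ)) _ (smash (x : OnePoint X)
      (smash (v : Sph r) (t : OnePoint ℝ) : OnePoint (RR r ⊗ LC.of ℝ : LC))) =
    LC.app (X := X ⊗ (RR r ⊗ LC.of ℝ)) _ (smash (x : OnePoint X)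
      (smash (v : Sph r) (t : OnePoint ℝ) : OnePoint (RR r ⊗ LC.of ℝ : LC)))
  rw [LC.app_comp, LC.app_comp, LC.app_comp, LC.app_whiskerLeft_smash, app_snocIso_hom_smash,
    app_adj_smash, LC.app_associator_inv_smash, LC.app_whiskerRight_smash, app_adj_smash,
    app_snocIso_hom_smash]
  exact stab_toSmash r (g x) v t

end Vale.Agent.P263.T0
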