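import Vale.Agent.P263.T0.Compact
import Mathlib.Topology.Compactification.OnePoint.Sphere
import Mathlib.Analysis.Normed.Module.Connected

/-!
# P263, statement layer: base components and based maps

* `Om0 r`: the path component of the constant map in `Ωʳ Sʳ`.
* `stab0 r : Om0 r ⟶ Om0 (r+1)`, `toQ0 r : Om0 r ⟶ Q0S0`.
* `exists_factor0`: a map from a compact path connected space to `Q₀S⁰` factors through `Om0 r`,
  for some `r` (which can be taken above any given bound).
-/

open CategoryTheory Limits OnePoint Topology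

namespace Vale.Agent.P263.T0

theorem toSmash_const (r : ℕ) : stab r (Om.const r) = Om.const (r + 1) := by
  apply Subtype.ext
  apply ContinuousMap.ext
  intro z
  obtain ⟨p, rfl⟩ := toSmash_surjective r z
  exact (stabFun_toSmash (Om.const r) rfl p).trans rfl

theorem toQ_stab (r : ℕ) (x : Om r) : toQ (r + 1) (stab r x) = toQ r x := by
  rw [← toQ_map (Nat.le_succ r) x, omSeq_map_succ]
  rfl

theorem toQ_const (r : ℕ) : toQ r (Om.const r) = base := by
  induction r with
  | zero => rfl
  | succ r ih => rw [← toSmash_const, toQ_stab, ih]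

theorem map_const {r s : ℕ} (h : r ≤ s) :
    (omSeq.map (homOfLE h)).hom (Om.const r) = Om.const s := by
  apply toQ_injective s
  rw [toQ_map, toQ_const, toQ_const]

/-- A continuous map restricts to path components. -/
def restrComp {X Y : Type} [TopologicalSpace X] [TopologicalSpace Y] (f : C(X, Y)) {x : X} {y : Y}
    (h : f x = y) : C(pathComponent x, pathComponent y) where
  toFun z := ⟨f z.1, by
    obtain ⟨γ⟩ := (z.2 : Joined x z.1)
    subst h
    exact ⟨γ.map f.continuous⟩⟩
  continuous_toFun := by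
    refine Continuous.subtype_mk ?_ _
    exact f.continuous.comp continuous_subtype_val

/-- The component of the constant map in `Ωʳ Sʳ`. -/
def Om0 (r : ℕ) : TopCat.{0} := TopCat.of (pathComponent (Om.const r))

/-- the base point of `Om0 r` -/
def Om0.base (r : ℕ) : Om0 r := ⟨Om.const r, mem_pathComponent_self _⟩

/-- Stabilization on base components. -/
def stab0 (r : ℕ) : Om0 r ⟶ Om0 (r + 1) := TopCat.ofHom (restrComp (stab r) (toSmash_const r))

/-- Iterated stabilization on base components. -/
def map0 {r s : ℕ} (h : r ≤ s) : Om0 r ⟶ Om0 s :=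
  TopCat.ofHom (restrComp (omSeq.map (homOfLE h)).hom (map_const h))

/-- The map from the base component of `Ωʳ Sʳ` to `Q₀S⁰`. -/
noncomputable def toQ0 (r : ℕ) : Om0 r ⟶ Q0S0 :=
  TopCat.ofHom (restrComp (toQ r).hom (toQ_const r))

theorem toQ0_coe (r : ℕ) (x : Om0 r) : (toQ0 r x).1 = toQ r x.1 := rfl

theorem map0_coe {r s : ℕ} (h : r ≤ s) (x : Om0 r) :
    (map0 h x).1 = (omSeq.map (homOfLE h)).hom x.1 := rfl

theorem stab0_coe (r : ℕ) (x : Om0 r) : (stab0 r x).1 = stab r x.1 := rfl

theorem map0_refl (r : ℕ) : map0 (le_refl r) = 𝟙 (Om0 r) := by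
  ext x
  apply Subtype.ext
  rw [map0_coe]
  have : (homOfLE (le_refl r)) = 𝟙 r := rfl
  rw [this, omSeq.map_id]
  rfl

theorem map0_comp {r s t : ℕ} (h : r ≤ s) (h' : s ≤ t) :
    map0 h ≫ map0 h' = map0 (h.trans h') := by
  ext x
  apply Subtype.ext
  show (omSeq.map (homOfLE h')).hom ((omSeq.map (homOfLE h)).hom x.1) =
    (omSeq.map (homOfLE (h.trans h'))).hom x.1
  have : (homOfLE (h.trans h')) = homOfLE h ≫ homOfLE h' := rfl
  rw [this, omSeq.map_comp]
  rfl

theorem map0_succ (r : ℕ) : map0 (Nat.le_succ r) = stab0 r := by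
  ext x
  apply Subtype.ext
  rw [map0_coe, omSeq_map_succ]
  rfl

theorem map0_toQ0 {r s : ℕ} (h : r ≤ s) : map0 h ≫ toQ0 s = toQ0 r := by
  ext x
  apply Subtype.ext
  exact toQ_map h x.1

theorem toQ0_injective (r : ℕ) : Function.Injective (toQ0 r) := by
  intro x y h
  apply Subtype.ext
  exact toQ_injective r (congrArg Subtype.val h)

theorem toQ0_base (r : ℕ) : toQ0 r (Om0.base r) = base0 := by
  apply Subtype.ext
  exact toQ_const r

/-- An element of `Ωʳ Sʳ` in the base component of `QS⁰` is in the base component at a later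
stage. -/
theorem exists_joined {r : ℕ} {x : Om r} (hx : toQ r x ∈ pathComponent base) :
    ∃ s, ∃ h : r ≤ s, (omSeq.map (homOfLE h)).hom x ∈ pathComponent (Om.const s) := by
  obtain ⟨γ⟩ := (hx : Joined base (toQ r x))
  obtain ⟨s, f, hf⟩ := exists_factor (K := unitInterval) γ.toContinuousMap
  refine ⟨max r s, le_max_left _ _, ?_⟩
  have h0 : (omSeq.map (homOfLE (le_max_right r s))).hom (f 0) = Om.const (max r s) := by
    apply toQ_injective
    rw [toQ_map, toQ_const, hf]
    exact γ.source
  have h1 : (omSeq.map (homOfLE (le_max_right r s))).hom (f 1) =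
      (omSeq.map (homOfLE (le_max_left r s))).hom x := by
    apply toQ_injective
    rw [toQ_map, toQ_map, hf]
    exact γ.target
  refine ⟨⟨⟨fun t => (omSeq.map (homOfLE (le_max_right r s))).hom (f t), ?_⟩, h0, h1⟩⟩
  exact (omSeq.map (homOfLE (le_max_right r s))).hom.continuous.comp f.continuous

/-- A map from a compact path connected space to `Q₀S⁰` factors through the base component of
some `Ωʳ Sʳ`, and `r` can be taken above any bound. -/
theorem exists_factor0 {K : Type} [TopologicalSpace K] [CompactSpace K] [PathConnectedSpace K]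
    (g : C(K, Q0S0)) (N : ℕ) :
    ∃ (r : ℕ) (_ : N ≤ r) (f : C(K, Om0 r)), ∀ x, toQ0 r (f x) = g x := by
  obtain ⟨r, f, hf⟩ := exists_factor (K := K)
    ((⟨Subtype.val, continuous_subtype_val⟩ : C(pathComponent base, QS0)).comp g)
  obtain ⟨k₀⟩ := (inferInstance : Nonempty K)
  have hk : toQ r (f k₀) ∈ pathComponent base := by
    rw [hf]; exact (g k₀).2
  obtain ⟨s, h, hs⟩ := exists_joined hk
  have h2 : r ≤ max s N := h.trans (le_max_left _ _)
  have hs2 : (omSeq.map (homOfLE h2)).hom (f k₀) ∈ pathComponent (Om.const (max s N)) := by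
    have := ((restrComp (omSeq.map (homOfLE (le_max_left s N))).hom
      (map_const (le_max_left s N))) ⟨_, hs⟩).2
    have e : homOfLE h2 = homOfLE h ≫ homOfLE (le_max_left s N) := rfl
    rw [e, omSeq.map_comp]
    exact this
  have hall : ∀ x : K, (omSeq.map (homOfLE h2)).hom (f x) ∈
      pathComponent (Om.const (max s N)) := by
    intro x
    refine Joined.mem_pathComponent ?_ hs2
    obtain ⟨γ⟩ := PathConnectedSpace.joined k₀ x
    exact ⟨γ.map ((omSeq.map (homOfLE h2)).hom.continuous.comp f.continuous)⟩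
  refine ⟨max s N, le_max_right _ _,
    ⟨fun x => (⟨_, hall x⟩ : pathComponent (Om.const (max s N))), ?_⟩, ?_⟩
  · exact Continuous.subtype_mk
      ((omSeq.map (homOfLE h2)).hom.continuous.comp f.continuous) _
  · intro x
    apply Subtype.ext
    show toQ _ ((omSeq.map (homOfLE h2)).hom (f x)) = _
    rw [toQ_map, hf]
    rfl

/-- The values at points sent to the base point are the constant map. -/
theorem factor0_base {K : Type} [TopologicalSpace K] {g : C(K, Q0S0)} {r : ℕ}
    {f : C(K, Om0 r)} (hf : ∀ x, toQ0 r (f x) = g x) {x : K} (hx : g x = base0) :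
    f x = Om0.base r := by
  apply toQ0_injective r
  rw [hf, hx, toQ0_base]

/-- Spheres of positive dimension are path connected. -/
theorem pathConnectedSpace_sph {d : ℕ} (hd : 0 < d) : PathConnectedSpace (Sph d) := by
  have e : OnePoint (Fin d → ℝ) ≃ₜ Metric.sphere (0 : EuclideanSpace ℝ (Fin (d + 1))) 1 :=
    onePointEquivSphereOfFinrankEq (by simp)
  have h1 : IsPathConnected (Metric.sphere (0 : EuclideanSpace ℝ (Fin (d + 1))) 1) := by
    apply isPathConnected_sphere _ _ zero_le_one
    rw [← Module.finrank_eq_rank]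
    simp only [finrank_euclideanSpace, Fintype.card_fin]
    exact_mod_cast Nat.succ_lt_succ hd
  have := isPathConnected_iff_pathConnectedSpace.1 h1
  exact e.symm.surjective.pathConnectedSpace e.symm.continuous

/-- Based maps `Sᵈ → Q₀S⁰` come from based maps to the base component of some `Ωʳ Sʳ`. -/
theorem exists_factor_sph {d : ℕ} (hd : 0 < d) (g : C(Sph d, Q0S0)) (hg : g ∞ = base0) (N : ℕ) :
    ∃ (r : ℕ) (_ : N ≤ r) (f : C(Sph d, Om0 r)), f ∞ = Om0.base r ∧
      ∀ x, toQ0 r (f x) = g x := by
  have := pathConnectedSpace_sph hd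
  obtain ⟨r, hr, f, hf⟩ := exists_factor0 g N
  exact ⟨r, hr, f, factor0_base hf hg, hf⟩

end Vale.Agent.P263.T0
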