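import Vale.Agent.P263.T0.TopDual

/-!
# P263: the statement for the literal space `Q₀S⁰`, level L0

`CurtisL0` : a based map `g : Sᵈ → Q₀S⁰`, `d > 0`, which is non-zero in `H_d(-; 𝔽₂)` has
`d = 2ˢ - 1` or `d = 2ˢ⁺¹ - 2`.
-/

open CategoryTheory Limits Simplicial OnePoint Topology

namespace Vale.Agent.P263.T0

/-- The statement in degree `d`. -/
def CurtisL0At (d : ℕ) : Prop :=
  ∀ g : TopCat.of (Sph d) ⟶ Q0S0, g (∞ : Sph d) = base0 → (H d).map g ≠ 0 →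
    (∃ s : ℕ, d + 1 = 2 ^ s) ∨ ∃ s : ℕ, d + 2 = 2 ^ (s + 1)

/-- The statement in all degrees. -/
def CurtisL0 : Prop := ∀ d : ℕ, 0 < d → CurtisL0At d

/-- Reduction to a simplicial set `Z` which receives the singular simplicial set of `Q₀S⁰`:
it suffices that `H^d(Z) → H^d(Q₀S⁰)` is onto and that `H^d(Z) → H^d(Sᵈ)` is zero for every map. -/
theorem H_map_eq_zero_of_target {d : ℕ} (Z : SSet.{0}) (j : TopCat.toSSet.obj Q0S0 ⟶ Z)
    (hj : ∀ c : (TopCat.toSSet.obj Q0S0) _⦋d⦌ → ZMod 2, cobd (TopCat.toSSet.obj Q0S0) c = 0 →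
      ∃ c' : Z _⦋d⦌ → ZMod 2, cobd Z c' = 0 ∧ IsCobd (TopCat.toSSet.obj Q0S0) (c + pull j c'))
    (core : ∀ (a : TopCat.toSSet.obj (TopCat.of (Sph d)) ⟶ Z) (c : Z _⦋d⦌ → ZMod 2),
      cobd Z c = 0 → IsCobd (TopCat.toSSet.obj (TopCat.of (Sph d))) (pull a c))
    (g : TopCat.of (Sph d) ⟶ Q0S0) : (H d).map g = 0 := by
  have h1 : SSet.homologyMap (TopCat.toSSet.map g ≫ j) RF2 d = 0 :=
    (homologyMap_eq_zero_iff _ _ d).2 fun c hc => core (TopCat.toSSet.map g ≫ j) c hc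
  have h2 : Function.Injective (SSet.homologyMap j RF2 d).hom :=
    (homologyMap_injective_iff _ j d).2 hj
  rw [SSet.homologyMap_comp] at h1
  have h3 : Mono (SSet.homologyMap j RF2 d) := (ModuleCat.mono_iff_injective _).2 h2
  show SSet.homologyMap (TopCat.toSSet.map g) RF2 d = 0
  rw [← cancel_mono (SSet.homologyMap j RF2 d), h1, zero_comp]

end Vale.Agent.P263.T0
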