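import Vale.Agent.P263.T0.Add
import Vale.Agent.P263.T0.SphH
import Vale.Agent.P263.T0.Stmt

/-!
# P263, statement layer: the Hurewicz map `h_d` and the span `V_d`

* `BMap d` : based maps `Sᵈ → Q₀S⁰`.
* `hur hd g ∈ H_d(Q₀S⁰; 𝔽₂)` : the image of the fundamental class.
* `hurImage hd` : the set `h_d(π_d(Q₀S⁰))`, as a submodule (by additivity).
* `V hd P` : the span of the classes `h_d(g)`, where `P g`.
* `hurImage_eq_V` : if `h_d(g) ≠ 0` implies `P g` then `h_d(π_d) = V`.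
-/

open CategoryTheory Limits Simplicial OnePoint Topology

namespace Vale.Agent.P263.T0

/-- Based maps `Sᵈ → Q₀S⁰`. -/
def BMap (d : ℕ) : Type := {g : TopCat.of (Sph d) ⟶ Q0S0 // g (∞ : Sph d) = base0}

/-- The mod 2 homology of `Q₀S⁰` in degree `d`. -/
noncomputable abbrev HQ (d : ℕ) : ModuleCat.{0} (ZMod 2) := (H d).obj Q0S0

/-- The fundamental class of the sphere `Sᵈ`: the unique non-zero element of `H_d(Sᵈ; 𝔽₂)`. -/
noncomputable def fund {d : ℕ} (hd : 0 < d) : ((H d).obj (TopCat.of (Sph d)) : Type) :=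
  SphH.iota hd

theorem fund_ne_zero {d : ℕ} (hd : 0 < d) : fund hd ≠ 0 := SphH.iota_ne_zero hd

theorem eq_zero_or_fund {d : ℕ} (hd : 0 < d) (x : ((H d).obj (TopCat.of (Sph d)) : Type)) :
    x = 0 ∨ x = fund hd := SphH.eq_zero_or_iota hd x

/-- The mod 2 Hurewicz map: `h_d(g) = g_*[Sᵈ]`. -/
noncomputable def hur {d : ℕ} (hd : 0 < d) (g : BMap d) : (HQ d : Type) :=
  ((H d).map g.1).hom (fund hd)

theorem hur_eq_zero_iff {d : ℕ} (hd : 0 < d) (g : BMap d) :
    hur hd g = 0 ↔ (H d).map g.1 = 0 := (SphH.H_map_eq_zero_iff_iota hd g.1).symm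

/-- The constant map. -/
noncomputable def BMap.zero (d : ℕ) : BMap d :=
  ⟨TopCat.ofHom (ContinuousMap.const (Sph d) base0), rfl⟩

theorem hur_zero {d : ℕ} (hd : 0 < d) : hur hd (BMap.zero d) = 0 := by
  rw [hur_eq_zero_iff]
  exact H_map_const (S := TopCat.of (Sph d)) base0 hd.ne'

/-- The sum of based maps. -/
noncomputable def BMap.add {d : ℕ} (hd : 0 < d) (f g : BMap d) : BMap d :=
  ⟨bsum hd f.1 g.1 (f.2.trans g.2.symm), (bsum_infty hd _ _ _).trans f.2⟩

/-- **Additivity of the Hurewicz map.** -/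
theorem hur_add {d : ℕ} (hd : 0 < d) (f g : BMap d) :
    hur hd (BMap.add hd f g) = hur hd f + hur hd g := by
  show ((H d).map (bsum hd f.1 g.1 (f.2.trans g.2.symm))).hom (fund hd) = _
  rw [H_map_bsum hd f.1 g.1 (f.2.trans g.2.symm) hd.ne']
  rfl

/-- Homotopic maps have the same Hurewicz image. -/
theorem hur_homotopy {d : ℕ} (hd : 0 < d) {f g : BMap d} (F : TopCat.Homotopy f.1 g.1) :
    hur hd f = hur hd g := by
  rw [hur, hur, H_map_homotopy F]

/-- The set `h_d(π_d(Q₀S⁰))`, a linear subspace of `H_d(Q₀S⁰; 𝔽₂)`. -/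
noncomputable def hurImage {d : ℕ} (hd : 0 < d) : Submodule (ZMod 2) (HQ d : Type) where
  carrier := Set.range (hur hd)
  add_mem' := by
    rintro _ _ ⟨f, rfl⟩ ⟨g, rfl⟩
    exact ⟨_, hur_add hd f g⟩
  zero_mem' := ⟨_, hur_zero hd⟩
  smul_mem' := by
    rintro c _ ⟨f, rfl⟩
    rcases SphH.zmod_two c with rfl | rfl
    · exact ⟨_, (hur_zero hd).trans (zero_smul _ _).symm⟩
    · exact ⟨f, (one_smul _ _).symm⟩

theorem mem_hurImage {d : ℕ} (hd : 0 < d) (x : (HQ d : Type)) :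
    x ∈ hurImage hd ↔ ∃ g, hur hd g = x := Iff.rfl

/-- The span of the classes `h_d(g)` over the maps `g` with the property `P`. -/
noncomputable def V {d : ℕ} (hd : 0 < d) (P : BMap d → Prop) : Submodule (ZMod 2) (HQ d : Type) :=
  Submodule.span (ZMod 2) (hur hd '' {g | P g})

theorem V_le {d : ℕ} (hd : 0 < d) (P : BMap d → Prop) : V hd P ≤ hurImage hd := by
  rw [V, Submodule.span_le]
  rintro _ ⟨g, _, rfl⟩
  exact ⟨g, rfl⟩

/-- If `h_d(g) ≠ 0` implies `P g` then `h_d(π_d) = V_d`. -/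
theorem hurImage_eq_V {d : ℕ} (hd : 0 < d) (P : BMap d → Prop)
    (h : ∀ g : BMap d, hur hd g ≠ 0 → P g) : hurImage hd = V hd P := by
  apply le_antisymm _ (V_le hd P)
  rintro _ ⟨g, rfl⟩
  by_cases hg : hur hd g = 0
  · rw [hg]
    exact Submodule.zero_mem _
  · exact Submodule.subset_span ⟨g, h g hg, rfl⟩

theorem range_hur_eq_V {d : ℕ} (hd : 0 < d) (P : BMap d → Prop)
    (h : ∀ g : BMap d, hur hd g ≠ 0 → P g) : Set.range (hur hd) = (V hd P : Set (HQ d : Type)) :=
  congrArg (fun S : Submodule (ZMod 2) (HQ d : Type) => (S : Set (HQ d : Type)))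
    (hurImage_eq_V hd P h)

/-- If `P` is additive in the sense that the sum of two elements with `P` does not have `P`, and
`h_d(g) ≠ 0` implies `P g`, then any two non-zero Hurewicz classes are equal. -/
theorem hur_unique {d : ℕ} (hd : 0 < d) (P : BMap d → Prop)
    (h : ∀ g : BMap d, hur hd g ≠ 0 → P g)
    (hP : ∀ f g : BMap d, P f → P g → ¬ P (BMap.add hd f g)) {f g : BMap d}
    (hf : P f) (hg : P g) : hur hd f = hur hd g := by
  have h1 : hur hd (BMap.add hd f g) = 0 := by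
    by_contra h2
    exact hP f g hf hg (h _ h2)
  rw [hur_add] at h1
  have h2 : hur hd g + hur hd g = 0 := by
    have : hur hd g + hur hd g = (2 : ZMod 2) • hur hd g := (two_smul _ _).symm
    rw [this, show (2 : ZMod 2) = 0 from rfl, zero_smul]
  calc hur hd f = hur hd f + (hur hd g + hur hd g) := by rw [h2, add_zero]
    _ = (hur hd f + hur hd g) + hur hd g := (add_assoc _ _ _).symm
    _ = hur hd g := by rw [h1, zero_add]

/-- The reformulation of `CurtisL0At` with `hur`. -/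
theorem curtisL0At_iff {d : ℕ} (hd : 0 < d) : CurtisL0At d ↔
    ∀ g : BMap d, hur hd g ≠ 0 → (∃ s : ℕ, d + 1 = 2 ^ s) ∨ ∃ s : ℕ, d + 2 = 2 ^ (s + 1) := by
  constructor
  · intro h g hg
    exact h g.1 g.2 fun h2 => hg ((hur_eq_zero_iff hd g).2 h2)
  · intro h g hg hne
    exact h ⟨g, hg⟩ fun h2 => hne ((hur_eq_zero_iff hd ⟨g, hg⟩).1 h2)

end Vale.Agent.P263.T0
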