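import Vale.Agent.P251.G.LC
import Mathlib.AlgebraicTopology.SingularHomology.Basic
import Mathlib.CategoryTheory.Functor.OfSequence
import Mathlib.Topology.Category.TopCat.Limits.Basic
import Mathlib.Topology.CompactOpen
import Mathlib.Topology.Compactification.OnePoint.Basic
import Mathlib.Topology.Connected.PathConnected
import Mathlib.Topology.Maps.Proper.CompactlyGenerated
import Mathlib.Algebra.Category.ModuleCat.Colimits
import Mathlib.Algebra.Category.ModuleCat.Abelian
import Mathlib.Analysis.InnerProductSpace.PiL2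

/-!
# P263, statement layer: the space `Q₀S⁰`

* `Sph r` : the sphere `Sʳ`, as the one-point compactification of `ℝʳ`, pointed at `∞`.
* `Om r` : the space `Ωʳ Sʳ` of pointed maps `Sʳ → Sʳ` (compact-open topology).
* `stab r : Om r → Om (r + 1)` : `f ↦ f ∧ id`.
* `QS0` : the colimit of the spaces `Om r` in topological spaces.
* `Q0S0` : the path component of the constant map.
-/

open CategoryTheory Limits OnePoint Topology

namespace Vale.Agent.P263.T0

/-- The sphere of dimension `r`, with base point `∞`. -/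
abbrev Sph (r : ℕ) : Type := OnePoint (Fin r → ℝ)

/-- `Ωʳ Sʳ`: the space of pointed continuous maps `Sʳ → Sʳ`, with the compact-open topology. -/
def Om (r : ℕ) : Type := {f : C(Sph r, Sph r) // f ∞ = ∞}

instance (r : ℕ) : TopologicalSpace (Om r) := instTopologicalSpaceSubtype

instance (r : ℕ) : CoeFun (Om r) (fun _ => Sph r → Sph r) := ⟨fun f => f.1⟩

/-- the constant map -/
def Om.const (r : ℕ) : Om r := ⟨ContinuousMap.const _ ∞, rfl⟩

/-- The underlying function of `f ∧ id : S^{r+1} → S^{r+1}`: it maps `(v, t)` to `(f v, t)`, and to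
`∞` if `f v = ∞`. -/
def stabFun {r : ℕ} (f : Sph r → Sph r) (z : Sph (r + 1)) : Sph (r + 1) :=
  z.elim ∞ (fun v => (f ((Fin.init v : Fin r → ℝ) : OnePoint (Fin r → ℝ))).elim ∞
    (fun w => ((Fin.snoc w (v (Fin.last r)) : Fin (r + 1) → ℝ) : OnePoint (Fin (r + 1) → ℝ))))

/-! ### Continuity -/

/-- `ℝʳ × ℝ = ℝ^{r+1}` -/
def snocHomeo (r : ℕ) : (Fin r → ℝ) × ℝ ≃ₜ (Fin (r + 1) → ℝ) where
  toFun p := Fin.snoc p.1 p.2
  invFun v := (Fin.init v, v (Fin.last r))
  left_inv p := by simp
  right_inv v := by simp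
  continuous_toFun := Continuous.finSnoc continuous_fst continuous_snd
  continuous_invFun := by
    refine Continuous.prodMk ?_ (continuous_apply _)
    exact continuous_pi fun i => continuous_apply _

/-- the quotient map `Sʳ × S¹ → S^{r+1}` -/
def toSmash (r : ℕ) (p : Sph r × OnePoint ℝ) : Sph (r + 1) :=
  (snocHomeo r).onePointCongr (P251.G.LC.smash p.1 p.2)

theorem toSmash_coe (r : ℕ) (v : Fin r → ℝ) (t : ℝ) :
    toSmash r ((v : OnePoint (Fin r → ℝ)), (t : OnePoint ℝ)) =
      ((Fin.snoc v t : Fin (r + 1) → ℝ) : OnePoint (Fin (r + 1) → ℝ)) := rfl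

theorem toSmash_infty_left (r : ℕ) (t : OnePoint ℝ) : toSmash r (∞, t) = ∞ := rfl

theorem toSmash_infty_right (r : ℕ) (v : Sph r) : toSmash r (v, ∞) = ∞ := by
  rw [toSmash, P251.G.LC.smash_infty_right]; rfl

theorem continuous_toSmash (r : ℕ) : Continuous (toSmash r) :=
  (Homeomorph.continuous _).comp P251.G.LC.continuous_smash

theorem toSmash_surjective (r : ℕ) : Function.Surjective (toSmash r) := by
  intro z
  induction z using OnePoint.rec with
  | infty => exact ⟨(∞, ∞), rfl⟩
  | coe v =>
    refine ⟨((Fin.init v : Fin r → ℝ), ((v (Fin.last r) : ℝ) : OnePoint ℝ)), ?_⟩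
    rw [toSmash_coe, Fin.snoc_init_self]

theorem stabFun_toSmash {r : ℕ} (f : Sph r → Sph r) (hf : f ∞ = ∞) (p : Sph r × OnePoint ℝ) :
    stabFun f (toSmash r p) = toSmash r (f p.1, p.2) := by
  obtain ⟨x, t⟩ := p
  induction x using OnePoint.rec with
  | infty => rw [toSmash_infty_left, hf, toSmash_infty_left]; rfl
  | coe v =>
    induction t using OnePoint.rec with
    | infty => rw [toSmash_infty_right, toSmash_infty_right]; rfl
    | coe t =>
      rw [toSmash_coe]
      show (f ((Fin.init (Fin.snoc v t : Fin (r + 1) → ℝ) : Fin r → ℝ) :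
        OnePoint (Fin r → ℝ))).elim ∞ _ = _
      rw [Fin.init_snoc]
      show (f v).elim ∞ (fun w => ((Fin.snoc w ((Fin.snoc v t : Fin (r + 1) → ℝ) (Fin.last r)) :
        Fin (r + 1) → ℝ) : OnePoint (Fin (r + 1) → ℝ))) = toSmash r (f v, t)
      rw [Fin.snoc_last]
      generalize f v = w
      induction w using OnePoint.rec with
      | infty => rfl
      | coe w => rfl

theorem isQuotientMap_id_toSmash (r : ℕ) (T : Type) [TopologicalSpace T] :
    IsQuotientMap (Prod.map (id : T → T) (toSmash r)) := by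
  have h1 : IsProperMap (toSmash r) := (continuous_toSmash r).isProperMap
  have h2 : IsProperMap (Prod.map (id : T → T) (toSmash r)) := isProperMap_id.prodMap h1
  exact h2.isClosedMap.isQuotientMap h2.continuous
    (Function.surjective_id.prodMap (toSmash_surjective r))

/-- The joint continuity of the stabilization. -/
theorem continuous_stabFun_uncurry (r : ℕ) (T : Type) [TopologicalSpace T]
    (F : T → Sph r → Sph r) (hF : Continuous (Function.uncurry F)) (hF' : ∀ t, F t ∞ = ∞) :
    Continuous (fun p : T × Sph (r + 1) => stabFun (F p.1) p.2) := by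
  rw [(isQuotientMap_id_toSmash r T).continuous_iff]
  have : (fun p : T × Sph (r + 1) => stabFun (F p.1) p.2) ∘ Prod.map id (toSmash r) =
      fun p : T × (Sph r × OnePoint ℝ) => toSmash r (F p.1 p.2.1, p.2.2) := by
    funext p
    exact stabFun_toSmash _ (hF' _) _
  rw [this]
  exact (continuous_toSmash r).comp ((hF.comp (continuous_fst.prodMk
    (continuous_fst.comp continuous_snd))).prodMk (continuous_snd.comp continuous_snd))

theorem continuous_stabFun {r : ℕ} (f : Sph r → Sph r) (hf : Continuous f) (hf' : f ∞ = ∞) :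
    Continuous (stabFun f) := by
  have := continuous_stabFun_uncurry r Unit (fun _ => f) (hf.comp continuous_snd) (fun _ => hf')
  exact this.comp (continuous_const (y := ()) |>.prodMk continuous_id)

/-- `f ∧ id` -/
def stabMap (r : ℕ) (f : Om r) : Om (r + 1) :=
  ⟨⟨stabFun f, continuous_stabFun f f.1.continuous f.2⟩, rfl⟩

/-- The stabilization map `Ωʳ Sʳ → Ω^{r+1} S^{r+1}`, `f ↦ f ∧ id`. -/
def stab (r : ℕ) : C(Om r, Om (r + 1)) where
  toFun := stabMap r
  continuous_toFun := by
    refine Continuous.subtype_mk (ContinuousMap.continuous_of_continuous_uncurry _ ?_) _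
    exact continuous_stabFun_uncurry r (Om r) (fun f => f)
      (ContinuousEval.continuous_eval.comp
        ((continuous_subtype_val.comp continuous_fst).prodMk continuous_snd)) (fun f => f.2)

/-- The sequence `Ω⁰S⁰ → Ω¹S¹ → Ω²S² → ⋯`. -/
def omSeq : ℕ ⥤ TopCat.{0} := Functor.ofSequence (X := fun r => TopCat.of (Om r))
  (fun r => TopCat.ofHom (stab r))

/-- `QS⁰ = colim Ωʳ Sʳ`. -/
noncomputable def QS0 : TopCat.{0} := colimit omSeq

/-- The map `Ωʳ Sʳ → QS⁰`. -/
noncomputable def toQ (r : ℕ) : TopCat.of (Om r) ⟶ QS0 := colimit.ι omSeq r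

/-- The base point of `QS⁰`: the class of the constant map. -/
noncomputable def base : QS0 := toQ 0 (Om.const 0)

/-- `Q₀S⁰`: the component of the base point. -/
noncomputable def Q0S0 : TopCat.{0} := TopCat.of (pathComponent base)

/-- The base point of `Q₀S⁰`. -/
noncomputable def base0 : Q0S0 := ⟨base, mem_pathComponent_self base⟩

/-- Singular homology with coefficients in `𝔽₂`. -/
noncomputable abbrev H (d : ℕ) : TopCat.{0} ⥤ ModuleCat.{0} (ZMod 2) :=
  (AlgebraicTopology.singularHomologyFunctor (ModuleCat.{0} (ZMod 2)) d).obj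
    (ModuleCat.of (ZMod 2) (ZMod 2))

end Vale.Agent.P263.T0
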