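import Vale.Agent.P263.T0.Defs
import Mathlib.Topology.Category.TopCat.Limits.Basic
import Mathlib.CategoryTheory.Limits.ConcreteCategory.Basic
import Mathlib.Topology.Separation.Hausdorff

/-!
# P263, T0: compact subsets of `QS⁰`
-/

open CategoryTheory Limits OnePoint Topology

namespace Vale.Agent.P263.T0

instance (r : ℕ) : T2Space (Om r) := inferInstanceAs (T2Space {f : C(Sph r, Sph r) // f ∞ = ∞})

/-- the embedding `Sʳ → S^{r+1}` at height `t` -/
def slice (r : ℕ) (t : ℝ) (x : Sph r) : Sph (r + 1) := toSmash r (x, (t : OnePoint ℝ))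

theorem continuous_slice (r : ℕ) (t : ℝ) : Continuous (slice r t) :=
  (continuous_toSmash r).comp (continuous_id.prodMk continuous_const)

theorem slice_coe (r : ℕ) (t : ℝ) (v : Fin r → ℝ) :
    slice r t (v : OnePoint (Fin r → ℝ)) =
      ((Fin.snoc v t : Fin (r + 1) → ℝ) : OnePoint (Fin (r + 1) → ℝ)) := rfl

theorem slice_infty (r : ℕ) (t : ℝ) : slice r t ∞ = ∞ := rfl

theorem slice_injective (r : ℕ) (t : ℝ) : Function.Injective (slice r t) := by
  intro x y h
  induction x using OnePoint.rec with
  | infty =>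
    induction y using OnePoint.rec with
    | infty => rfl
    | coe w => rw [slice_coe, slice_infty] at h; exact absurd h.symm (OnePoint.coe_ne_infty _)
  | coe v =>
    induction y using OnePoint.rec with
    | infty => rw [slice_coe, slice_infty] at h; exact absurd h (OnePoint.coe_ne_infty _)
    | coe w =>
      rw [slice_coe, slice_coe, OnePoint.coe_eq_coe] at h
      have := congrArg Fin.init h
      rw [Fin.init_snoc, Fin.init_snoc] at this
      rw [this]

theorem isClosedEmbedding_slice (r : ℕ) (t : ℝ) : IsClosedEmbedding (slice r t) :=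
  (continuous_slice r t).isClosedEmbedding (slice_injective r t)

theorem stab_slice {r : ℕ} (f : Om r) (t : ℝ) (x : Sph r) :
    stab r f (slice r t x) = slice r t (f x) :=
  stabFun_toSmash _ f.2 _

theorem isEmbedding_stab (r : ℕ) : IsEmbedding (stab r) := by
  have h1 : IsEmbedding (fun f : Om r =>
      (⟨slice r 0, continuous_slice r 0⟩ : C(Sph r, Sph (r + 1))).comp f.1) :=
    (ContinuousMap.isEmbedding_postcomp _ (isClosedEmbedding_slice r 0).isEmbedding).comp
      IsEmbedding.subtypeVal
  have h2 : Continuous (fun g : Om (r + 1) =>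
      g.1.comp (⟨slice r 0, continuous_slice r 0⟩ : C(Sph r, Sph (r + 1)))) :=
    (ContinuousMap.continuous_precomp _).comp continuous_subtype_val
  have h3 : (fun g : Om (r + 1) =>
      g.1.comp (⟨slice r 0, continuous_slice r 0⟩ : C(Sph r, Sph (r + 1)))) ∘ stab r =
      (fun f : Om r => (⟨slice r 0, continuous_slice r 0⟩ : C(Sph r, Sph (r + 1))).comp f.1) := by
    funext f
    ext x
    exact stab_slice f 0 x
  exact IsEmbedding.of_comp (stab r).continuous h2 (by rw [h3]; exact h1)

theorem isClosed_range_stab (r : ℕ) : IsClosed (Set.range (stab r)) := by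
  have h : Set.range (stab r) = ⋂ (x : Sph r) (t : ℝ), {g : Om (r + 1) |
      (g (slice r 0 x), g (slice r t x)) ∈ Set.range (fun y : Sph r => (slice r 0 y, slice r t y))} := by
    ext g
    simp only [Set.mem_range, Set.mem_iInter, Set.mem_ofPred_eq]
    constructor
    · rintro ⟨f, rfl⟩ x t
      exact ⟨f x, by rw [stab_slice, stab_slice]⟩
    · intro hg
      have hy : ∀ x, ∃ y : Sph r, ∀ t, g (slice r t x) = slice r t y := by
        intro x
        obtain ⟨y, hy⟩ := hg x 0
        refine ⟨y, fun t => ?_⟩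
        obtain ⟨z, hz⟩ := hg x t
        have h1 : slice r 0 y = g (slice r 0 x) := (Prod.ext_iff.1 hy).1
        have h2 : slice r 0 z = g (slice r 0 x) := (Prod.ext_iff.1 hz).1
        have h3 : slice r t z = g (slice r t x) := (Prod.ext_iff.1 hz).2
        rw [slice_injective r 0 (h1.trans h2.symm), h3]
      choose f hf using hy
      have hfc : Continuous f := by
        rw [(isClosedEmbedding_slice r 0).isEmbedding.continuous_iff]
        have : slice r 0 ∘ f = fun x => g (slice r 0 x) := by
          funext x; exact (hf x 0).symm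
        rw [this]
        exact g.1.continuous.comp (continuous_slice r 0)
      have hfi : f ∞ = ∞ := by
        apply slice_injective r 0
        rw [← hf ∞ 0, slice_infty]
        exact g.2
      refine ⟨⟨⟨f, hfc⟩, hfi⟩, ?_⟩
      apply Subtype.ext
      ext z
      obtain ⟨⟨x, t⟩, rfl⟩ := toSmash_surjective r z
      induction t using OnePoint.rec with
      | infty =>
        rw [toSmash_infty_right]
        exact g.2.symm
      | coe t =>
        exact (stab_slice (⟨⟨f, hfc⟩, hfi⟩ : Om r) t x).trans (hf x t).symm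
  rw [h]
  refine isClosed_iInter fun x => isClosed_iInter fun t => ?_
  have hc : IsClosed (Set.range (fun y : Sph r => (slice r 0 y, slice r t y))) :=
    (isCompact_range ((continuous_slice r 0).prodMk (continuous_slice r t))).isClosed
  refine hc.preimage ?_
  have hev : ∀ z : Sph (r + 1), Continuous (fun g : Om (r + 1) => g z) := fun z =>
    (ContinuousEvalConst.continuous_eval_const z).comp continuous_subtype_val
  exact (hev _).prodMk (hev _)

theorem isClosedEmbedding_stab (r : ℕ) : IsClosedEmbedding (stab r) :=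
  ⟨isEmbedding_stab r, isClosed_range_stab r⟩

theorem omSeq_map_succ (r : ℕ) :
    omSeq.map (homOfLE (Nat.le_succ r)) = TopCat.ofHom (stab r) :=
  Functor.ofSequence_map_homOfLE_succ _ _

theorem isClosedEmbedding_map {r s : ℕ} (h : r ≤ s) :
    IsClosedEmbedding (omSeq.map (homOfLE h)).hom := by
  induction s, h using Nat.le_induction with
  | base =>
    have : (homOfLE (le_refl r)) = 𝟙 r := rfl
    rw [this, omSeq.map_id]
    exact IsClosedEmbedding.id
  | succ s h ih =>
    have : (homOfLE (Nat.le_succ_of_le h)) = homOfLE h ≫ homOfLE (Nat.le_succ s) := rfl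
    rw [this, omSeq.map_comp, omSeq_map_succ]
    exact (isClosedEmbedding_stab s).comp ih

theorem toQ_map {r s : ℕ} (h : r ≤ s) (x : Om r) :
    toQ s ((omSeq.map (homOfLE h)).hom x) = toQ r x := by
  have := colimit.w omSeq (homOfLE h)
  exact congrArg (fun f => f.hom x) this

theorem toQ_surj (x : QS0) : ∃ (r : ℕ) (y : Om r), toQ r y = x := by
  obtain ⟨r, y, hy⟩ := Concrete.colimit_exists_rep omSeq x
  exact ⟨r, y, hy⟩

theorem toQ_injective (r : ℕ) : Function.Injective (toQ r) := by
  intro x y h
  obtain ⟨k, f, g, hfg⟩ := (Concrete.colimit_rep_eq_iff_exists omSeq x y).1 h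
  have : f = g := Subsingleton.elim _ _
  subst this
  have hr : f = homOfLE (leOfHom f) := Subsingleton.elim _ _
  rw [hr] at hfg
  exact (isClosedEmbedding_map (leOfHom f)).injective hfg

theorem isOpen_QS0_iff (U : Set QS0) : IsOpen U ↔ ∀ r, IsOpen (toQ r ⁻¹' U) :=
  TopCat.colimit_isOpen_iff omSeq U

theorem isClosed_QS0_iff (U : Set QS0) : IsClosed U ↔ ∀ r, IsClosed (toQ r ⁻¹' U) := by
  rw [← isOpen_compl_iff, isOpen_QS0_iff]
  simp only [Set.preimage_compl, isOpen_compl_iff]

theorem isClosedEmbedding_toQ (r : ℕ) : IsClosedEmbedding (toQ r) := by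
  refine IsClosedEmbedding.of_continuous_injective_isClosedMap (toQ r).hom.continuous
    (toQ_injective r) ?_
  intro C hC
  rw [isClosed_QS0_iff]
  intro s
  rcases le_total r s with h | h
  · have : toQ s ⁻¹' (toQ r '' C) = (omSeq.map (homOfLE h)).hom '' C := by
      ext x
      constructor
      · rintro ⟨y, hy, hxy⟩
        refine ⟨y, hy, ?_⟩
        apply toQ_injective s
        rw [toQ_map h, hxy]
      · rintro ⟨y, hy, rfl⟩
        exact ⟨y, hy, (toQ_map h y).symm⟩
    rw [this]
    exact (isClosedEmbedding_map h).isClosedMap C hC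
  · have : toQ s ⁻¹' (toQ r '' C) = (omSeq.map (homOfLE h)).hom ⁻¹' C := by
      ext x
      constructor
      · rintro ⟨y, hy, hxy⟩
        have hyx : y = (omSeq.map (homOfLE h)).hom x := by
          apply toQ_injective r
          rw [toQ_map h, hxy]
        show (omSeq.map (homOfLE h)).hom x ∈ C
        have hy' := hy
        rw [hyx] at hy'
        exact hy'
      · intro hx
        exact ⟨_, hx, toQ_map h x⟩
    rw [this]
    exact hC.preimage (omSeq.map (homOfLE h)).hom.continuous

theorem range_toQ_mono {r s : ℕ} (h : r ≤ s) : Set.range (toQ r) ⊆ Set.range (toQ s) := by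
  rintro _ ⟨x, rfl⟩
  exact ⟨_, toQ_map h x⟩

/-- A compact subset of `QS⁰` lies in some `Ωʳ Sʳ`. -/
theorem exists_subset_range {K : Set QS0} (hK : IsCompact K) :
    ∃ r, K ⊆ Set.range (toQ r) := by
  by_contra hcon
  push Not at hcon
  have hx : ∀ n, ∃ x ∈ K, x ∉ Set.range (toQ n) := fun n => Set.not_subset.1 (hcon n)
  choose x hxK hx using hx
  have hcl : ∀ n, IsClosed {y : QS0 | ∃ m, n ≤ m ∧ x m = y} := by
    intro n
    rw [isClosed_QS0_iff]
    intro r
    have hfin : (toQ r ⁻¹' {y : QS0 | ∃ m, n ≤ m ∧ x m = y}).Finite := by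
      have hsub : toQ r ⁻¹' {y : QS0 | ∃ m, n ≤ m ∧ x m = y} ⊆
          toQ r ⁻¹' (x '' Set.Iio r) := by
        rintro y ⟨m, _, hm⟩
        refine ⟨m, ?_, hm⟩
        by_contra hmr
        exact hx m (range_toQ_mono (not_lt.1 hmr) ⟨y, hm.symm⟩)
      refine Set.Finite.subset ?_ hsub
      exact ((Set.finite_Iio r).image x).preimage (toQ_injective r).injOn
    exact hfin.isClosed
  obtain ⟨n, hn⟩ := hK.elim_directed_cover (fun n => {y : QS0 | ∃ m, n ≤ m ∧ x m = y}ᶜ)
    (fun n => (hcl n).isOpen_compl) (by
      intro y _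
      obtain ⟨r, z, hz⟩ := toQ_surj y
      refine Set.mem_iUnion.2 ⟨r, ?_⟩
      rintro ⟨m, hm, hxm⟩
      exact hx m (range_toQ_mono hm ⟨z, hz.trans hxm.symm⟩))
    (by
      refine directed_of_isDirected_le ?_
      intro a b hab
      simp only [Set.compl_subset_compl]
      rintro y ⟨m, hm, h⟩
      exact ⟨m, hab.trans hm, h⟩)
  exact hn (hxK n) ⟨n, le_rfl, rfl⟩

/-- A map from a compact space to `QS⁰` factors through some `Ωʳ Sʳ`. -/
theorem exists_factor {K : Type} [TopologicalSpace K] [CompactSpace K] (g : C(K, QS0)) :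
    ∃ (r : ℕ) (f : C(K, Om r)), ∀ x, toQ r (f x) = g x := by
  obtain ⟨r, hr⟩ := exists_subset_range (isCompact_range g.continuous)
  have hx : ∀ x, ∃ y, toQ r y = g x := fun x => hr ⟨x, rfl⟩
  choose f hf using hx
  refine ⟨r, ⟨f, ?_⟩, hf⟩
  rw [(isClosedEmbedding_toQ r).isEmbedding.continuous_iff]
  have : toQ r ∘ f = g := funext hf
  rw [this]
  exact g.continuous

end Vale.Agent.P263.T0
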