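import Vale.Agent.P263.T0.SphH
import Vale.Agent.P263.GB.Pinch
import Vale.Agent.P263.G2.Coll
import Mathlib.Topology.UnitInterval
import Mathlib.GroupTheory.Perm.Basic

/-!
# P263, statement layer: the fundamental cycle of the cube

`cph r : C(Fin r → I, Sph r)` collapses the boundary of the cube; on the interior it is
`x ↦ (tan (π (x_k - 1/2)))_k`, i.e. `cph r x = tup (fun k => loopU (x k))`. `cubS r π`, for a permutation `π` of `Fin r`, is the
simplex `t ↦ cph (k ↦ Σ_{i > π k} t_i)` of the standard triangulation of the cube. Main result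
`cube_iff`: a reduced `r`-cocycle of `Sph r` is a coboundary iff its sum over these simplices is 0.
-/

open OnePoint Topology Set Vale.Agent.P246.T

namespace Vale.Agent.P263.T0.SphH

/-! ### The interval -/

/-- `(0, 1) → ℝ` -/
noncomputable def psi (x : ℝ) : ℝ := Real.tan (Real.pi * (x - 1 / 2))

/-- the inverse -/
noncomputable def gsi (y : ℝ) : ℝ := GB.loopI y

theorem gsi_pos (y : ℝ) : 0 < gsi y := GB.loopI_pos y

theorem gsi_lt (y : ℝ) : gsi y < 1 := GB.loopI_lt_one y

theorem continuous_gsi : Continuous gsi := GB.continuous_loopI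

theorem psi_gsi (y : ℝ) : psi (gsi y) = y := by
  have h := GB.loopE_loopI y
  rw [GB.loopE, if_pos ⟨GB.loopI_pos y, GB.loopI_lt_one y⟩] at h
  exact OnePoint.coe_injective h

theorem gsi_psi {a : ℝ} (ha : 0 < a) (ha' : a < 1) : gsi (psi a) = a := GB.loopI_tan ha ha'

theorem psi_inj {a b : ℝ} (ha : 0 < a) (ha' : a < 1) (hb : 0 < b) (hb' : b < 1)
    (h : psi a = psi b) : a = b := by
  rw [← gsi_psi ha ha', h, gsi_psi hb hb']

theorem continuousOn_psi : ContinuousOn psi (Ioo 0 1) := by
  intro u hu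
  have hpi := Real.pi_pos
  have h1 := hu.1
  have h2 := hu.2
  have hcos : Real.cos (Real.pi * (u - 1 / 2)) ≠ 0 :=
    (Real.cos_pos_of_mem_Ioo ⟨by nlinarith, by nlinarith⟩).ne'
  exact ((Real.continuousAt_tan.2 hcos).comp
    (f := fun v : ℝ => Real.pi * (v - 1 / 2)) (by fun_prop)).continuousWithinAt

theorem loopU_of {x : I} (h : 0 < (x : ℝ) ∧ (x : ℝ) < 1) :
    GB.loopU x = ((psi x : ℝ) : OnePoint ℝ) := if_pos h

theorem loopU_of_not {x : I} (h : ¬ (0 < (x : ℝ) ∧ (x : ℝ) < 1)) : GB.loopU x = ∞ := if_neg h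

/-! ### The cube -/

/-- the open cube -/
def ocub (r : ℕ) : Set (Fin r → I) := {x | ∀ k, 0 < (x k : ℝ) ∧ (x k : ℝ) < 1}

theorem isOpen_ocub (r : ℕ) : IsOpen (ocub r) := by
  have : ocub r = ⋂ k : Fin r, {x | 0 < (x k : ℝ) ∧ (x k : ℝ) < 1} := by
    ext x
    simp [ocub]
  rw [this]
  refine isOpen_iInter_of_finite fun k => ?_
  have hc : Continuous fun x : Fin r → I => (x k : ℝ) :=
    continuous_subtype_val.comp (continuous_apply k)
  exact (isOpen_lt continuous_const hc).inter (isOpen_lt hc continuous_const)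

/-- the coordinates on the open cube -/
noncomputable def gcub (r : ℕ) (u : Fin r → ℝ) : Fin r → I := fun k =>
  ⟨gsi (u k), (gsi_pos _).le, (gsi_lt _).le⟩

theorem gcub_mem (r : ℕ) (u : Fin r → ℝ) : gcub r u ∈ ocub r := fun _ => ⟨gsi_pos _, gsi_lt _⟩

/-- `ℝʳ` is the open cube -/
noncomputable def cubH (r : ℕ) : (Fin r → ℝ) ≃ₜ ocub r where
  toFun u := ⟨gcub r u, gcub_mem r u⟩
  invFun x k := psi (x.1 k)
  left_inv u := funext fun k => psi_gsi (u k)
  right_inv x := by
    apply Subtype.ext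
    funext k
    exact Subtype.ext (gsi_psi (x.2 k).1 (x.2 k).2)
  continuous_toFun := by
    refine Continuous.subtype_mk (continuous_pi fun k => Continuous.subtype_mk ?_ _) _
    exact continuous_gsi.comp (continuous_apply k)
  continuous_invFun := by
    refine continuous_pi fun k => ?_
    refine continuousOn_psi.comp_continuous ?_ fun x => ⟨(x.2 k).1, (x.2 k).2⟩
    exact continuous_subtype_val.comp ((continuous_apply k).comp continuous_subtype_val)

theorem isOpenEmbedding_gcub (r : ℕ) : IsOpenEmbedding (gcub r) :=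
  (isOpen_ocub r).isOpenEmbedding_subtypeVal.comp (cubH r).isOpenEmbedding

/-- the cube as an object of `LC` -/
noncomputable abbrev LCub (r : ℕ) : P251.G.LC := P251.G.LC.of (Fin r → I)

/-- Euclidean space as an object of `LC` -/
noncomputable abbrev LR (r : ℕ) : P251.G.LC := P251.G.LC.of (Fin r → ℝ)

/-- The collapse `[0,1]ʳ → Sʳ`. -/
noncomputable def cph (r : ℕ) : C(Fin r → I, Sph r) where
  toFun x := P251.G.LC.collapseFun (X := LCub r) (Y := LR r) (gcub r) (x : OnePoint (Fin r → I))
  continuous_toFun := (P251.G.LC.continuous_collapseFun (X := LCub r) (Y := LR r)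
    (isOpenEmbedding_gcub r)).comp OnePoint.continuous_coe

theorem cph_gcub (r : ℕ) (u : Fin r → ℝ) : cph r (gcub r u) = (u : Sph r) :=
  P251.G.LC.collapseFun_coe_of_injective (X := LCub r) (Y := LR r)
    (isOpenEmbedding_gcub r).injective u

theorem gcub_psi {r : ℕ} {x : Fin r → I} (hx : x ∈ ocub r) : gcub r (fun k => psi (x k)) = x := by
  funext k
  exact Subtype.ext (gsi_psi (hx k).1 (hx k).2)

theorem cph_of_mem {r : ℕ} {x : Fin r → I} (hx : x ∈ ocub r) :
    cph r x = ((fun k => psi (x k) : Fin r → ℝ) : Sph r) := by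
  conv_lhs => rw [← gcub_psi hx]
  exact cph_gcub _ _

theorem cph_of_notMem {r : ℕ} {x : Fin r → I} (hx : x ∉ ocub r) : cph r x = ∞ :=
  P251.G.LC.collapseFun_of_notMem (X := LCub r) (Y := LR r)
    (by rintro ⟨u, rfl⟩; exact hx (gcub_mem r u))

theorem cph_eq_tup {r : ℕ} (x : Fin r → I) : cph r x = G2.tup fun k => GB.loopU (x k) := by
  by_cases hx : x ∈ ocub r
  · rw [cph_of_mem hx, ← G2.tup_coe]
    congr 1
    funext k
    exact (loopU_of (hx k)).symm
  · rw [cph_of_notMem hx]
    obtain ⟨k, hk⟩ : ∃ k, ¬ (0 < (x k : ℝ) ∧ (x k : ℝ) < 1) := by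
      by_contra hc
      push Not at hc
      exact hx fun k => ⟨(hc k).1, (hc k).2⟩
    exact (G2.tup_of_eq_infty (i := k) (loopU_of_not hk)).symm

theorem cph_of_zero {r : ℕ} {x : Fin r → I} {k : Fin r} (h : (x k : ℝ) = 0) : cph r x = ∞ :=
  cph_of_notMem fun hx => (hx k).1.ne' h

theorem cph_of_one {r : ℕ} {x : Fin r → I} {k : Fin r} (h : (x k : ℝ) = 1) : cph r x = ∞ :=
  cph_of_notMem fun hx => (hx k).2.ne h

/-! ### Affine simplices of the cube -/

/-- the sum of the barycentric coordinates in a set of vertices -/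
noncomputable def wsum {p : ℕ} (A : Fin p → Prop) [DecidablePred A] : C(Dl p, I) where
  toFun t := ⟨∑ i, if A i then t i else 0, Finset.sum_nonneg fun i _ => by
      split_ifs
      · exact stdSimplex.zero_le t i
      · exact le_rfl, by
      rw [← stdSimplex.sum_eq_one t]
      refine Finset.sum_le_sum fun i _ => ?_
      split_ifs
      · exact le_rfl
      · exact stdSimplex.zero_le t i⟩
  continuous_toFun := by
    refine Continuous.subtype_mk (continuous_finsetSum _ fun i _ => ?_) _
    by_cases h : A i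
    · simp only [h, if_true]
      exact (continuous_apply i).comp continuous_subtype_val
    · simp only [h, if_false]
      exact continuous_const

theorem wsum_apply {p : ℕ} (A : Fin p → Prop) [DecidablePred A] (t : Dl p) :
    (wsum A t : ℝ) = ∑ i, if A i then t i else 0 := rfl

theorem wsum_face {p : ℕ} (A : Fin (p + 1) → Prop) [DecidablePred A] (j : Fin (p + 1))
    (t : Dl p) : (wsum A (face p j t) : ℝ) = ∑ i, if A (j.succAbove i) then t i else 0 := by
  rw [wsum_apply, Fin.sum_univ_succAbove _ j, CV.face_self]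
  simp only [CV.face_succAbove, ite_self, zero_add]

/-- the affine simplex of the cube of a family of sets of vertices -/
noncomputable def wcub {p r : ℕ} (A : Fin r → Fin p → Prop) [∀ k, DecidablePred (A k)] :
    C(Dl p, Fin r → I) := ⟨fun t k => wsum (A k) t, by fun_prop⟩

/-- The simplex of the cube `{x_{π⁻¹ 0} ≥ x_{π⁻¹ 1} ≥ ...}`. -/
noncomputable def simS (r : ℕ) (π : Equiv.Perm (Fin r)) : C(Dl (r + 1), Fin r → I) :=
  wcub fun k i => (π k).1 < i.1

theorem simS_apply (r : ℕ) (π : Equiv.Perm (Fin r)) (t : Dl (r + 1)) (k : Fin r) :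
    (simS r π t k : ℝ) = ∑ i, if (π k).1 < i.1 then t i else 0 := rfl

/-- The simplices of the fundamental cycle. -/
noncomputable def cubS (r : ℕ) (π : Equiv.Perm (Fin r)) : C(Dl (r + 1), Sph r) :=
  (cph r).comp (simS r π)

theorem simS_face (r : ℕ) (π : Equiv.Perm (Fin (r + 1))) (j : Fin (r + 2)) (t : Dl (r + 1))
    (k : Fin (r + 1)) : (simS (r + 1) π (face (r + 1) j t) k : ℝ) =
      ∑ i, if (π k).1 < (j.succAbove i).1 then t i else 0 := by
  have := wsum_face (fun i : Fin (r + 2) => (π k).1 < i.1) j t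
  exact this

theorem cubS_face_zero (r : ℕ) (π : Equiv.Perm (Fin (r + 1))) :
    (cubS (r + 1) π).comp (face (r + 1) 0) = ContinuousMap.const _ ∞ := by
  ext1 t
  refine cph_of_one (k := π.symm 0) ?_
  rw [simS_face, Equiv.apply_symm_apply, ← stdSimplex.sum_eq_one t]
  refine Finset.sum_congr rfl fun i _ => ?_
  rw [if_pos]
  rw [Fin.zero_succAbove]
  exact Nat.succ_pos _

theorem cubS_face_last (r : ℕ) (π : Equiv.Perm (Fin (r + 1))) :
    (cubS (r + 1) π).comp (face (r + 1) (Fin.last _)) = ContinuousMap.const _ ∞ := by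
  ext1 t
  refine cph_of_zero (k := π.symm (Fin.last r)) ?_
  rw [simS_face, Equiv.apply_symm_apply]
  refine Finset.sum_eq_zero fun i _ => ?_
  rw [if_neg]
  rw [Fin.succAbove_last]
  have := i.2
  simp only [Fin.val_last, Fin.val_castSucc]
  omega

/-- neighbouring simplices have a common face -/
theorem cubS_face_swap (r : ℕ) (π : Equiv.Perm (Fin (r + 1))) (j : Fin r) :
    (cubS (r + 1) (π.trans (Equiv.swap j.castSucc j.succ))).comp (face (r + 1) j.succ.castSucc) =
      (cubS (r + 1) π).comp (face (r + 1) j.succ.castSucc) := by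
  ext1 t
  change cph _ (simS (r + 1) _ _) = cph _ (simS (r + 1) _ _)
  congr 1
  funext k
  apply Subtype.ext
  rw [simS_face, simS_face]
  refine Finset.sum_congr rfl fun i _ => ?_
  have key : ((π.trans (Equiv.swap j.castSucc j.succ)) k).1 < (j.succ.castSucc.succAbove i).1 ↔
      (π k).1 < (j.succ.castSucc.succAbove i).1 := by
    rw [Equiv.trans_apply]
    have hv : (j.succ.castSucc.succAbove i).1 ≤ j.1 ∨ j.1 + 2 ≤ (j.succ.castSucc.succAbove i).1 := by
      rw [Fin.succAbove]
      split_ifs with h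
      · left
        rw [Fin.lt_def] at h
        simp only [Fin.val_castSucc, Fin.val_succ] at h ⊢
        omega
      · right
        rw [Fin.lt_def] at h
        simp only [Fin.val_castSucc, Fin.val_succ] at h ⊢
        omega
    by_cases h1 : π k = j.castSucc
    · rw [h1, Equiv.swap_apply_left]
      simp only [Fin.val_castSucc, Fin.val_succ] at hv ⊢
      omega
    · by_cases h2 : π k = j.succ
      · rw [h2, Equiv.swap_apply_right]
        simp only [Fin.val_castSucc, Fin.val_succ] at hv ⊢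
        omega
      · rw [Equiv.swap_apply_of_ne_of_ne h1 h2]
  simp only [key]

/-- the functional of the cube -/
noncomputable def EC (r : ℕ) (f : C(Dl (r + 1), Sph r) → ZMod 2) : ZMod 2 :=
  ∑ π : Equiv.Perm (Fin r), (f (cubS r π) + f (ContinuousMap.const _ ∞))

theorem EC_add (r : ℕ) (f g : C(Dl (r + 1), Sph r) → ZMod 2) :
    EC r (f + g) = EC r f + EC r g := by
  rw [EC, EC, EC, ← Finset.sum_add_distrib]
  refine Finset.sum_congr rfl fun π _ => ?_
  simp only [Pi.add_apply]
  ring

theorem add_self_two (a : ZMod 2) : a + a = 0 := CharTwo.add_self_eq_zero a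

/-- The cube is a cycle. -/
theorem EC_cob (r : ℕ) (g : C(Dl (r + 1), Sph (r + 1)) → ZMod 2) : EC (r + 1) (cob g) = 0 := by
  have h1 : ∀ π : Equiv.Perm (Fin (r + 1)),
      cob g (cubS (r + 1) π) + cob g (ContinuousMap.const _ ∞) =
      ∑ j : Fin (r + 2), (g ((cubS (r + 1) π).comp (face (r + 1) j)) +
        g (ContinuousMap.const _ ∞)) := by
    intro π
    rw [Finset.sum_add_distrib]
    rfl
  rw [EC]
  simp only [h1]
  rw [Finset.sum_comm]
  refine Finset.sum_eq_zero fun j _ => ?_
  refine Fin.lastCases ?_ (fun j => ?_) j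
  · refine Finset.sum_eq_zero fun π _ => ?_
    rw [cubS_face_last, add_self_two]
  · refine Fin.cases ?_ (fun j => ?_) j
    · refine Finset.sum_eq_zero fun π _ => ?_
      rw [Fin.castSucc_zero, cubS_face_zero, add_self_two]
    · refine Finset.sum_involution (fun π _ => π.trans (Equiv.swap j.castSucc j.succ)) ?_ ?_ ?_ ?_
      · intro π _
        rw [cubS_face_swap]
        exact add_self_two _
      · intro π _ _ h
        have := congrArg (fun e : Equiv.Perm (Fin (r + 1)) => e (π.symm j.castSucc)) h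
        simp only [Equiv.trans_apply, Equiv.apply_symm_apply, Equiv.swap_apply_left] at this
        exact (Fin.castSucc_lt_succ (i := j)).ne' this
      · intro π _
        exact Finset.mem_univ _
      · intro π _
        ext k
        simp

/-! ### One simplex of the cube -/

theorem tele {r : ℕ} (X : ℕ → ℝ) (m : ℕ) (hm : m ≤ r) :
    (∑ i : Fin (r + 1), if m < i.1 then X i.1 - X (i.1 + 1) else 0) = X (m + 1) - X (r + 1) := by
  rw [Fin.sum_univ_eq_sum_range (fun i => if m < i then X i - X (i + 1) else 0) (r + 1)]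
  induction r, hm using Nat.le_induction with
  | base =>
    rw [sub_self]
    refine Finset.sum_eq_zero fun i hi => ?_
    rw [if_neg]
    have := Finset.mem_range.1 hi
    omega
  | succ n hn ih =>
    rw [Finset.sum_range_succ, ih, if_pos (by omega)]
    ring

/-- the open simplex of the cube -/
def oS (r : ℕ) : Set (Fin r → I) := {x | x ∈ ocub r ∧ ∀ k l : Fin r, k < l → (x l : ℝ) < x k}

theorem isOpen_oS (r : ℕ) : IsOpen (oS r) := by
  have : oS r = ocub r ∩ ⋂ k : Fin r, ⋂ l : Fin r, {x | k < l → (x l : ℝ) < x k} := by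
    ext x
    simp [oS]
  rw [this]
  refine (isOpen_ocub r).inter (isOpen_iInter_of_finite fun k => isOpen_iInter_of_finite fun l => ?_)
  by_cases h : k < l
  · simp only [h, true_imp_iff]
    exact isOpen_lt (continuous_subtype_val.comp (continuous_apply l))
      (continuous_subtype_val.comp (continuous_apply k))
  · simp only [h, false_imp_iff, ofPred_true, isOpen_univ]

theorem simS_anti {r : ℕ} (t : Dl (r + 1)) (ht : t ∉ bdD r) {k l : Fin r} (h : k < l) :
    (simS r 1 t l : ℝ) < simS r 1 t k := by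
  have hp : ∀ i, 0 < t i := fun i =>
    lt_of_le_of_ne (stdSimplex.zero_le t i) fun h => ht ⟨i, h.symm⟩
  have hkl : k.1 < l.1 := h
  have e : ∀ m : Fin r, (simS r 1 t m : ℝ) = ∑ i, if m.1 < i.1 then t i else 0 := fun m => rfl
  rw [e, e]
  refine Finset.sum_lt_sum (fun i _ => ?_) ⟨l.castSucc, Finset.mem_univ _, ?_⟩
  · by_cases h1 : l.1 < i.1
    · rw [if_pos h1, if_pos (hkl.trans h1)]
    · rw [if_neg h1]
      split_ifs
      · exact (hp i).le
      · exact le_rfl
  · rw [if_neg (by simp), if_pos (by exact hkl)]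
    exact hp _

theorem simS_mem {r : ℕ} (t : Dl (r + 1)) (ht : t ∉ bdD r) : simS r 1 t ∈ ocub r := by
  have hp : ∀ i, 0 < t i := fun i =>
    lt_of_le_of_ne (stdSimplex.zero_le t i) fun h => ht ⟨i, h.symm⟩
  intro k
  rw [simS_apply]
  constructor
  · refine Finset.sum_pos' (fun i _ => ?_) ⟨Fin.last r, Finset.mem_univ _, ?_⟩
    · split_ifs
      · exact (hp i).le
      · exact le_rfl
    · rw [if_pos]
      · exact hp _
      · exact k.2
  · rw [← stdSimplex.sum_eq_one t]
    refine Finset.sum_lt_sum (fun i _ => ?_) ⟨0, Finset.mem_univ _, ?_⟩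
    · split_ifs
      · exact le_rfl
      · exact (hp i).le
    · rw [if_neg (by simp)]
      exact hp _

theorem simS_inj {r : ℕ} : Function.Injective (simS r 1) := by
  intro s t h
  have h1 : ∀ m : ℕ, m ≤ r → (∑ i : Fin (r + 1), if m < i.1 then s i else 0) =
      ∑ i : Fin (r + 1), if m < i.1 then t i else 0 := by
    intro m hm
    rcases Nat.lt_or_ge m r with h2 | h2
    · have := congrArg (fun x : Fin r → I => (x ⟨m, h2⟩ : ℝ)) h
      exact this
    · have : m = r := le_antisymm hm h2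
      subst this
      rw [Finset.sum_eq_zero, Finset.sum_eq_zero]
      · intro i _
        rw [if_neg]
        have := i.2
        omega
      · intro i _
        rw [if_neg]
        have := i.2
        omega
  have hd : ∀ (v : Fin (r + 1) → ℝ) (j : Fin (r + 1)), 0 < j.1 →
      (∑ i : Fin (r + 1), if j.1 - 1 < i.1 then v i else 0) =
        v j + ∑ i : Fin (r + 1), if j.1 < i.1 then v i else 0 := by
    intro v j hj
    rw [← Finset.add_sum_erase _ _ (Finset.mem_univ j),
      ← Finset.add_sum_erase (a := j) _ (fun i => if j.1 < i.1 then v i else 0)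
        (Finset.mem_univ j), if_pos (by omega), if_neg (lt_irrefl _), zero_add]
    congr 1
    refine Finset.sum_congr rfl fun i hi => ?_
    have hne : i.1 ≠ j.1 := fun h => (Finset.mem_erase.1 hi).1 (Fin.ext h)
    by_cases h3 : j.1 < i.1
    · rw [if_pos h3, if_pos (by omega)]
    · rw [if_neg h3, if_neg (by omega)]
  have hpos : ∀ j : Fin (r + 1), 0 < j.1 → s j = t j := by
    intro j hj
    have e1 := hd s j hj
    have e2 := hd t j hj
    have e3 := h1 (j.1 - 1) (by have := j.2; omega)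
    have e4 := h1 j.1 (by have := j.2; omega)
    linarith
  apply stdSimplex.ext
  funext j
  change s j = t j
  rcases Nat.eq_zero_or_pos j.1 with h0 | h0
  · have hj : j = 0 := Fin.ext h0
    subst hj
    have e1 := stdSimplex.sum_eq_one s
    have e2 := stdSimplex.sum_eq_one t
    rw [Fin.sum_univ_succ] at e1 e2
    have e3 : ∑ i : Fin r, s i.succ = ∑ i : Fin r, t i.succ :=
      Finset.sum_congr rfl fun i _ => hpos _ (Nat.succ_pos _)
    linarith
  · exact hpos j h0

/-- the partial sums of a point of the open simplex of the cube -/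
noncomputable def XX {r : ℕ} (x : Fin r → I) (i : ℕ) : ℝ :=
  if i = 0 then 1 else if h : i - 1 < r then x ⟨i - 1, h⟩ else 0

theorem XX_zero {r : ℕ} (x : Fin r → I) : XX x 0 = 1 := if_pos rfl

theorem XX_succ {r : ℕ} (x : Fin r → I) (k : Fin r) : XX x (k.1 + 1) = x k := by
  rw [XX, if_neg (Nat.succ_ne_zero _), Nat.add_sub_cancel, dif_pos k.2]

theorem XX_last {r : ℕ} (x : Fin r → I) : XX x (r + 1) = 0 := by
  rw [XX, if_neg (Nat.succ_ne_zero _), Nat.add_sub_cancel, dif_neg (lt_irrefl _)]

theorem XX_lt {r : ℕ} {x : Fin r → I} (hx : x ∈ oS r) (i : ℕ) (hi : i ≤ r) :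
    XX x (i + 1) < XX x i := by
  rcases Nat.eq_zero_or_pos i with h0 | h0
  · subst h0
    rw [XX_zero]
    rcases Nat.eq_zero_or_pos r with h1 | h1
    · subst h1
      rw [XX_last]
      exact one_pos
    · rw [XX_succ x ⟨0, h1⟩]
      exact (hx.1 _).2
  · obtain ⟨m, rfl⟩ : ∃ m, i = m + 1 := ⟨i - 1, by omega⟩
    have hm : m < r := by omega
    rw [XX_succ x ⟨m, hm⟩]
    rcases Nat.lt_or_ge (m + 1) r with h1 | h1
    · rw [XX_succ x ⟨m + 1, h1⟩]
      exact hx.2 _ _ (Fin.mk_lt_mk.2 (Nat.lt_succ_self m))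
    · have : m + 1 = r := by omega
      rw [this, XX_last]
      exact (hx.1 _).1

theorem exists_simS {r : ℕ} {x : Fin r → I} (hx : x ∈ oS r) :
    ∃ t : Dl (r + 1), t ∉ bdD r ∧ simS r 1 t = x := by
  have hs : ∑ i : Fin (r + 1), (XX x i.1 - XX x (i.1 + 1)) = 1 := by
    rw [Fin.sum_univ_eq_sum_range (fun i => XX x i - XX x (i + 1)) (r + 1),
      Finset.sum_range_sub', XX_zero, XX_last, sub_zero]
  have hp : ∀ i : Fin (r + 1), 0 < XX x i.1 - XX x (i.1 + 1) := fun i =>
    sub_pos.2 (XX_lt hx i.1 (by have := i.2; omega))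
  refine ⟨⟨fun i => XX x i.1 - XX x (i.1 + 1), fun i => (hp i).le, hs⟩, ?_, ?_⟩
  · rintro ⟨i, hi⟩
    exact (hp i).ne' hi
  · funext k
    apply Subtype.ext
    rw [simS_apply]
    change (∑ i : Fin (r + 1), if k.1 < i.1 then XX x i.1 - XX x (i.1 + 1) else 0) = _
    rw [tele (XX x) k.1 k.2.le, XX_succ, XX_last, sub_zero]

theorem isEmbedding_simS (r : ℕ) : IsEmbedding (simS r 1) :=
  ((simS r 1).continuous.isClosedEmbedding simS_inj).isEmbedding

/-- the interior of one simplex of the cube -/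
theorem isOpenEmbedding_simS_sm (r : ℕ) :
    IsOpenEmbedding fun u : Fin r → ℝ => simS r 1 (sm u) := by
  refine ⟨(isEmbedding_simS r).comp (isOpenEmbedding_sm r).isEmbedding, ?_⟩
  have : range (fun u : Fin r → ℝ => simS r 1 (sm u)) = oS r := by
    ext x
    constructor
    · rintro ⟨u, rfl⟩
      exact ⟨simS_mem _ (sm_notMem u), fun k l h => simS_anti _ (sm_notMem u) h⟩
    · intro hx
      obtain ⟨t, ht, rfl⟩ := exists_simS hx
      exact ⟨lg t, by change simS r 1 (sm (lg t)) = _; rw [sm_lg ht]⟩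
  rw [this]
  exact isOpen_oS r

/-- the interior of the simplex as an open subset of `ℝʳ` -/
noncomputable def jj (r : ℕ) (u : Fin r → ℝ) : Fin r → ℝ := fun k => psi (simS r 1 (sm u) k)

theorem gcub_jj (r : ℕ) (u : Fin r → ℝ) : gcub r (jj r u) = simS r 1 (sm u) :=
  gcub_psi (simS_mem _ (sm_notMem u))

theorem isOpenEmbedding_jj (r : ℕ) : IsOpenEmbedding (jj r) := by
  refine IsOpenEmbedding.of_comp (jj r) (isOpenEmbedding_gcub r) ?_
  have : gcub r ∘ jj r = fun u : Fin r → ℝ => simS r 1 (sm u) := funext fun u => gcub_jj r u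
  rw [this]
  exact isOpenEmbedding_simS_sm r

/-- The map of the sphere which collapses the complement of one simplex of the cube. -/
noncomputable def cc (r : ℕ) : C(Sph r, Sph r) where
  toFun x := P251.G.LC.collapseFun (X := LR r) (Y := LR r) (jj r) x
  continuous_toFun := P251.G.LC.continuous_collapseFun (X := LR r) (Y := LR r)
    (isOpenEmbedding_jj r)

theorem cc_infty (r : ℕ) : cc r ∞ = ∞ :=
  P251.G.LC.collapseFun_infty (X := LR r) (Y := LR r) (jj r)

theorem cc_jj (r : ℕ) (u : Fin r → ℝ) : cc r (jj r u : Sph r) = (u : Sph r) :=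
  P251.G.LC.collapseFun_coe_of_injective (X := LR r) (Y := LR r)
    (isOpenEmbedding_jj r).injective u

theorem cc_of_notMem {r : ℕ} {x : Fin r → ℝ} (h : x ∉ range (jj r)) : cc r (x : Sph r) = ∞ :=
  P251.G.LC.collapseFun_of_notMem (X := LR r) (Y := LR r) h

theorem cc_cph {r : ℕ} {x : Fin r → I} (h : ∀ u : Fin r → ℝ, x ≠ simS r 1 (sm u)) :
    cc r (cph r x) = ∞ := by
  by_cases hx : x ∈ ocub r
  · rw [cph_of_mem hx]
    refine cc_of_notMem ?_
    rintro ⟨u, hu⟩
    apply h u
    rw [← gcub_jj, hu, gcub_psi hx]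
  · rw [cph_of_notMem hx, cc_infty]

theorem cc_cubS_one (r : ℕ) : (cc r).comp (cubS r 1) = sig r := by
  ext1 t
  change cc r (cph r (simS r 1 t)) = sig r t
  by_cases ht : t ∈ bdD r
  · rw [sig_of_mem ht]
    apply cc_cph
    intro u hu
    have := simS_inj hu
    rw [this] at ht
    exact sm_notMem u ht
  · obtain ⟨u, rfl⟩ : ∃ u, sm u = t := ⟨lg t, sm_lg ht⟩
    rw [sig_sm, ← gcub_jj, cph_gcub, cc_jj]

theorem cc_cubS_ne {r : ℕ} {π : Equiv.Perm (Fin r)} (hπ : π ≠ 1) :
    (cc r).comp (cubS r π) = ContinuousMap.const _ ∞ := by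
  ext1 t
  change cc r (cph r (simS r π t)) = ∞
  apply cc_cph
  intro u hu
  apply hπ
  have hmono : StrictMono π := by
    intro k l hkl
    by_contra hc
    have h1 : (π l).1 ≤ (π k).1 := Fin.le_def.1 (not_lt.1 hc)
    have h2 := simS_anti (sm u) (sm_notMem u) hkl
    rw [← hu, simS_apply, simS_apply] at h2
    refine absurd h2 (not_lt.2 (Finset.sum_le_sum fun i _ => ?_))
    split_ifs
    · exact le_rfl
    · omega
    · exact stdSimplex.zero_le t i
    · exact le_rfl
  have h3 := Subsingleton.elim (hmono.orderIsoOfSurjective π π.surjective) (OrderIso.refl _)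
  ext k
  exact congrArg (fun e : Fin r ≃o Fin r => (e k).1) h3

theorem EC_cc (r : ℕ) (f : C(Dl (r + 1), Sph r) → ZMod 2) :
    EC r (fun τ => f ((cc r).comp τ)) = f (sig r) + f (ContinuousMap.const _ ∞) := by
  have hc : (cc r).comp (ContinuousMap.const (Dl (r + 1)) ∞) = ContinuousMap.const _ ∞ := by
    ext1 t
    exact cc_infty r
  rw [EC, Finset.sum_eq_single 1]
  · rw [cc_cubS_one, hc]
  · intro π _ hπ
    rw [cc_cubS_ne hπ, hc, add_self_two]
  · intro h
    exact absurd (Finset.mem_univ _) h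

/-- Main result, for functions on continuous maps. -/
theorem cob_iff_EC {r : ℕ} {f : C(Dl (r + 2), Sph (r + 1)) → ZMod 2} (hf : cob f = 0) :
    (∃ g, f = cob g) ↔ EC (r + 1) f = 0 := by
  constructor
  · rintro ⟨g, rfl⟩
    exact EC_cob r g
  · intro h
    obtain ⟨f₁, h1, h2⟩ := exists_fund_cocycle (hgen_sph (r + 1)) sig_bd
    by_contra hc
    have h3 : f (sig (r + 1)) + f (ContinuousMap.const _ ∞) = 1 :=
      (zmod_two _).resolve_left fun h0 => hc ((cob_iff (hgen_sph (r + 1)) sig_bd hf).2 h0)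
    let f₂ : C(Dl (r + 2), Sph (r + 1)) → ZMod 2 := fun τ => f₁ ((cc (r + 1)).comp τ)
    have h4 : cob f₂ = 0 := by
      funext τ
      exact congrFun h1 ((cc (r + 1)).comp τ)
    have h5 : EC (r + 1) f₂ = 1 := by rw [EC_cc, h2]
    have h6 : f₂ (sig (r + 1)) + f₂ (ContinuousMap.const _ ∞) = 1 := by
      refine (zmod_two _).resolve_left fun h0 => ?_
      obtain ⟨g, hg⟩ := (cob_iff (hgen_sph (r + 1)) sig_bd h4).2 h0
      rw [hg, EC_cob] at h5
      exact zero_ne_one h5
    have h7 : cob (f + f₂) = 0 := by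
      funext τ
      have := congrArg₂ (· + ·) (congrFun hf τ) (congrFun h4 τ)
      simp only [Pi.zero_apply, add_zero] at this
      rw [Pi.zero_apply, ← this]
      simp only [cob, Pi.add_apply, Finset.sum_add_distrib]
    obtain ⟨g, hg⟩ := (cob_iff (hgen_sph (r + 1)) sig_bd h7).2 (by
      rw [Pi.add_apply, Pi.add_apply, add_add_add_comm, h3, h6]
      rfl)
    have h8 := EC_add (r + 1) f f₂
    rw [hg, EC_cob, h, h5, zero_add] at h8
    exact zero_ne_one h8

end Vale.Agent.P263.T0.SphH

open CategoryTheory Limits Simplicial OnePoint Topology Vale.Agent.P246.T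

namespace Vale.Agent.P263.T0.SphH

/-- The criterion with the simplices of the cube. -/
theorem cube_iff' {r : ℕ} (hr : 0 < r) (b : (SS r) _⦋r⦌ → ZMod 2) (hb : cobd (SS r) b = 0) :
    IsCobd (SS r) b ↔
      ∑ π : Equiv.Perm (Fin r), (b (mkS (Sph r) (cubS r π)) + b (cstS r r)) = 0 := by
  obtain ⟨k, rfl⟩ : ∃ k, r = k + 1 := ⟨r - 1, by omega⟩
  rw [isCobd_iff_exists]
  exact cob_iff_EC ((cob_eq_zero_iff b).2 hb)

/-- THE NUMBER OF THE CUBE: a reduced cocycle is a coboundary iff its sum over the `r!` simplices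
of the cube is zero. -/
theorem cube_iff {r : ℕ} (hr : 0 < r) (b : (SS r) _⦋r⦌ → ZMod 2) (hb : cobd (SS r) b = 0)
    (h0 : b (cstS r r) = 0) :
    IsCobd (SS r) b ↔ ∑ π : Equiv.Perm (Fin r), b (mkS (Sph r) (cubS r π)) = 0 := by
  rw [cube_iff' hr b hb, h0]
  simp only [add_zero]

theorem cube_iff_one {r : ℕ} (hr : 0 < r) (b : (SS r) _⦋r⦌ → ZMod 2) (hb : cobd (SS r) b = 0)
    (h0 : b (cstS r r) = 0) :
    ¬ IsCobd (SS r) b ↔ ∑ π : Equiv.Perm (Fin r), b (mkS (Sph r) (cubS r π)) = 1 := by
  rw [cube_iff hr b hb h0]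
  constructor
  · exact (zmod_two _).resolve_left
  · intro h h'
    rw [h] at h'
    exact one_ne_zero h'

end Vale.Agent.P263.T0.SphH
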